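import Vale.Agent.P214.R2.ExcBasic

/-! # P214, block BB-C: the statement COL used by the assembly of the collapsed cells -/

open MeasureTheory Set Filter Topology Metric
open scoped ENNReal NNReal RealInnerProductSpace

namespace Vale.Agent.P214.R2F

/-- **COL** (helper266's form): over the base ball `ball z (3 l)` the heights are within `H₀` of
one height, and on `W` the heights oscillate by at most `σ` at scale `r`. -/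
def ColStmt (E : Type*) [NormedAddCommGroup E] [InnerProductSpace ℝ E] [FiniteDimensional ℝ E]
    [MeasurableSpace E] [BorelSpace E] (m : ℕ) : Prop :=
  ∀ M c₀ l : ℝ, 0 < M → 0 < c₀ → 0 < l → l ≤ 1 → ∃ C : ℝ, 0 < C ∧
    ∀ (T : Submodule ℝ E) (G : Set E) (h : ℝ) (ν : Measure E) (P : E → E →L[ℝ] E),
    FV.CylStat m T G h ν P → ∀ z ∈ T, (∀ x ∈ T, ‖x - z‖ ≤ 3 * l → x ∈ G) →
    ∀ (c : E) (H₀ r σ : ℝ), c ∈ Tᗮ → 0 ≤ H₀ → H₀ ≤ 1 →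
    (∀ᵐ y ∂ν, ‖T.starProjection (y - z)‖ ≤ 3 * l → ‖FV.co T y - c‖ ≤ H₀) →
    ∫ y in {y | ‖T.starProjection (y - z)‖ ≤ 3 * l}, FV.tilt T (P y) ∂ν ≤ 1 →
    ν.real {y | ‖T.starProjection (y - z)‖ ≤ 3 * l} ≤ M →
    (∀ x ∈ T, ‖x - z‖ ≤ l → c₀ ≤ ν.real {y | ‖T.starProjection (y - x)‖ ≤ l / 2}) →
    0 < r → r ≤ l → 0 < σ →
    ∀ W : Set E, MeasurableSet W → W ⊆ {y | ‖T.starProjection (y - z)‖ ≤ l} →
    (∀ᵐ y ∂ν, y ∈ W → ∀ᵐ y' ∂ν, ‖T.starProjection (y' - y)‖ ≤ r → ‖FV.co T (y' - y)‖ ≤ σ) →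
    ∫ y in W, FV.tilt T (P y) ∂ν ≤
      C * (σ + H₀ * (∫ y in {y | ‖T.starProjection (y - z)‖ ≤ 3 * l}, FV.tilt T (P y) ∂ν) / r ^ m) *
        √(∫ y in {y | ‖T.starProjection (y - z)‖ ≤ 3 * l}, FV.tilt T (P y) ∂ν) +
      C * (∫ y in {y | ‖T.starProjection (y - z)‖ ≤ 3 * l}, FV.tilt T (P y) ∂ν) * ν.real W

end Vale.Agent.P214.R2F
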