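import Mathlib
import Vale.Agent.P214.AREA.Conv
import Vale.Agent.P214.BES.Basic

/-! # P214, block R2-FIN: positivity on the good set, local Vitali estimate of the bad set -/

open MeasureTheory Set Filter Topology Metric
open scoped ENNReal NNReal RealInnerProductSpace

set_option linter.unusedSectionVars false

namespace Vale.Agent.P214.R2F

open Vale.Agent.P214.FV Vale.Agent.P214.INT

variable {E : Type*} [NormedAddCommGroup E] [InnerProductSpace ℝ E] [FiniteDimensional ℝ E]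
  [MeasurableSpace E] [BorelSpace E] {m : ℕ}

variable {T : Submodule ℝ E} {G : Set E} {h : ℝ} {ν : Measure E} {P : E → E →L[ℝ] E}
  {S : Set E} {θ : E → ℕ} {J : E → ℝ}

lemma measurable_pr (T : Submodule ℝ E) : Measurable (T.starProjection : E → E) :=
  T.starProjection.continuous.measurable

lemma tilt_nonneg_ae (hC : CylStat m T G h ν P) : ∀ᵐ y ∂ν, 0 ≤ FV.tilt T (P y) := by
  filter_upwards [hC.proj] with y hy
  obtain ⟨L, -, hL⟩ := hy
  rw [hL]; exact FV.tilt_nonneg L T

lemma tilt_le_ae (hC : CylStat m T G h ν P) : ∀ᵐ y ∂ν, FV.tilt T (P y) ≤ m := by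
  filter_upwards [hC.proj] with y hy
  obtain ⟨L, hL', hL⟩ := hy
  rw [hL]; exact (FV.tilt_le L T).trans (by rw [hL'])

lemma aesm_tilt (hC : CylStat m T G h ν P) :
    AEStronglyMeasurable (fun y => FV.tilt T (P y)) ν := by
  unfold FV.tilt
  refine continuous_tr.comp_aestronglyMeasurable ?_
  have : Continuous fun p : E →L[ℝ] E => (co T).comp p := by fun_prop
  exact this.comp_aestronglyMeasurable hC.meas

lemma integrable_tilt (hC : CylStat m T G h ν P) : Integrable (fun y => FV.tilt T (P y)) ν := by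
  have := hC.fin
  refine Integrable.mono' (integrable_const (m:ℝ)) (aesm_tilt hC) ?_
  filter_upwards [tilt_nonneg_ae hC, tilt_le_ae hC] with y h0 h1
  rw [Real.norm_of_nonneg h0]; exact h1

/-- bounded measurable functions of the base point times bounded functions are integrable -/
lemma integrable_base (_hC : CylStat m T G h ν P) {ψ : E → ℝ} (hψ : Measurable ψ) {M : ℝ}
    (hM : ∀ x, |ψ x| ≤ M) {w : E → ℝ} (hw : Integrable w ν) :
    Integrable (fun y => ψ (T.starProjection y) * w y) ν := by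
  refine hw.bdd_mul (c := M) (hψ.comp (measurable_pr T)).aestronglyMeasurable ?_
  exact Eventually.of_forall fun y => by rw [Real.norm_eq_abs]; exact hM _

/-- **(P1)** On a Borel set of base points over which the number of sheets is `Q` and the tilt is
at most `κ`, the area excess minus half the tilt excess is at most `κ/2` times the tilt excess. -/
theorem pos_on (hI : IntCyl m T G h ν P S θ J)
    (hJ : ∀ᵐ y ∂ν, 1 - FV.tilt T (P y) / 2 - FV.tilt T (P y) ^ 2 / 2 ≤ J y) {Q : ℕ} {X : Set E}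
    (hN : ∀ᵐ x ∂((μH[m] : Measure E).restrict (T : Set E)), x ∈ X →
      sheets T S θ univ x = Q)
    {κ : ℝ} (hκ : ∀ᵐ y ∂ν, T.starProjection y ∈ X → FV.tilt T (P y) ≤ κ) {ψ : E → ℝ}
    (hψ : Measurable ψ) (h0 : ∀ x, 0 ≤ ψ x) {M : ℝ} (hM : ∀ x, ψ x ≤ M)
    (hs : ∀ x, x ∉ X → ψ x = 0) :
    ∫ y, ψ (T.starProjection y) * (1 - FV.tilt T (P y) / 2) ∂ν -
        Q * ∫ x in (T : Set E), ψ x ∂μH[m] ≤
      κ / 2 * ∫ y, ψ (T.starProjection y) * FV.tilt T (P y) ∂ν := by
  have hC := hI.stat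
  have hfin := hC.fin
  have hM' : ∀ x, |ψ x| ≤ M := fun x => by rw [abs_of_nonneg (h0 x)]; exact hM x
  have hti := integrable_tilt hC
  have hJi : Integrable J ν := Integrable.of_bound hI.measJ.aestronglyMeasurable 1 (by
    filter_upwards [hI.J_nonneg, hI.J_le] with y h1 h2
    rw [Real.norm_of_nonneg h1]; exact h2)
  have i1 := integrable_base hC hψ hM' hJi
  have i2 := integrable_base hC hψ hM' hti
  have i3 : Integrable (fun y => ψ (T.starProjection y) * (1 - FV.tilt T (P y) / 2)) ν :=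
    integrable_base hC hψ hM' ((integrable_const (1:ℝ)).sub (hti.div_const 2))
  -- the area formula
  have harea := hI.area univ MeasurableSet.univ (fun x => ENNReal.ofReal (ψ x)) hψ.ennreal_ofReal
  rw [Measure.restrict_univ] at harea
  have e1 : ∫⁻ y, ENNReal.ofReal (ψ (T.starProjection y)) * ENNReal.ofReal (J y) ∂ν =
      ENNReal.ofReal (∫ y, ψ (T.starProjection y) * J y ∂ν) := by
    rw [ofReal_integral_eq_lintegral_ofReal i1]
    · refine lintegral_congr fun y => ?_
      rw [ENNReal.ofReal_mul (h0 _)]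
    · filter_upwards [hI.J_nonneg] with y hy
      exact mul_nonneg (h0 _) hy
  have e2 : ∫⁻ x in (T : Set E), ENNReal.ofReal (ψ x) * sheets T S θ univ x ∂μH[m] =
      Q * ∫⁻ x in (T : Set E), ENNReal.ofReal (ψ x) ∂μH[m] := by
    rw [← lintegral_const_mul _ hψ.ennreal_ofReal]
    refine lintegral_congr_ae ?_
    filter_upwards [hN] with x hx
    by_cases hxX : x ∈ X
    · rw [hx hxX, mul_comm]
    · rw [hs x hxX, ENNReal.ofReal_zero, zero_mul, mul_zero]
  rw [e1, e2] at harea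
  have hkey : ∫ y, ψ (T.starProjection y) * J y ∂ν = Q * ∫ x in (T : Set E), ψ x ∂μH[m] := by
    have h1 : 0 ≤ ∫ y, ψ (T.starProjection y) * J y ∂ν := by
      refine integral_nonneg_of_ae ?_
      filter_upwards [hI.J_nonneg] with y hy
      exact mul_nonneg (h0 _) hy
    rcases Nat.eq_zero_or_pos Q with hQ | hQ
    · subst hQ
      rw [Nat.cast_zero, zero_mul] at harea
      rw [Nat.cast_zero, zero_mul]
      exact le_antisymm (ENNReal.ofReal_eq_zero.1 harea) h1
    · have h2 : ∫ x in (T : Set E), ψ x ∂μH[m] =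
          (∫⁻ x in (T : Set E), ENNReal.ofReal (ψ x) ∂μH[m]).toReal :=
        integral_eq_lintegral_of_nonneg_ae (Eventually.of_forall h0) hψ.aestronglyMeasurable
      rw [h2, ← ENNReal.toReal_ofReal h1, harea, ENNReal.toReal_mul, ENNReal.toReal_natCast]
  rw [← hkey, ← integral_sub i3 i1, ← integral_const_mul]
  refine integral_mono_ae (i3.sub i1) (i2.const_mul _) ?_
  filter_upwards [hJ, hκ, tilt_nonneg_ae hC] with y h1 h2 h3
  show ψ (T.starProjection y) * (1 - FV.tilt T (P y) / 2) - ψ (T.starProjection y) * J y ≤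
    κ / 2 * (ψ (T.starProjection y) * FV.tilt T (P y))
  by_cases hy : T.starProjection y ∈ X
  · have h4 := h2 hy
    have h5 := h0 (T.starProjection y)
    have h6 : 1 - FV.tilt T (P y) / 2 - J y ≤ κ / 2 * FV.tilt T (P y) := by nlinarith
    calc _ = ψ (T.starProjection y) * (1 - FV.tilt T (P y) / 2 - J y) := by ring
      _ ≤ ψ (T.starProjection y) * (κ / 2 * FV.tilt T (P y)) := mul_le_mul_of_nonneg_left h6 h5
      _ = _ := by ring
  · rw [hs _ hy]; simp

/-- off the good set -/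
theorem pos_off (hC : CylStat m T G h ν P) {Q : ℕ} {Y : Set E} {ψ : E → ℝ} (hY : MeasurableSet Y)
    (hψ : Measurable ψ) (h0 : ∀ x, 0 ≤ ψ x) {M : ℝ} (hM : ∀ x, ψ x ≤ M)
    (hs : ∀ x, x ∉ Y → ψ x = 0) :
    ∫ y, ψ (T.starProjection y) * (1 - FV.tilt T (P y) / 2) ∂ν -
        Q * ∫ x in (T : Set E), ψ x ∂μH[m] ≤ M * ν.real (T.starProjection ⁻¹' Y) := by
  have hfin := hC.fin
  have hM' : ∀ x, |ψ x| ≤ M := fun x => by rw [abs_of_nonneg (h0 x)]; exact hM x
  have hti := integrable_tilt hC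
  have i3 : Integrable (fun y => ψ (T.starProjection y) * (1 - FV.tilt T (P y) / 2)) ν :=
    integrable_base hC hψ hM' ((integrable_const (1:ℝ)).sub (hti.div_const 2))
  have h1 : 0 ≤ Q * ∫ x in (T : Set E), ψ x ∂μH[m] :=
    mul_nonneg (Nat.cast_nonneg _) (integral_nonneg h0)
  have hYm : MeasurableSet (T.starProjection ⁻¹' Y) := measurable_pr T hY
  have h2 : M * ν.real (T.starProjection ⁻¹' Y) =
      ∫ y, (T.starProjection ⁻¹' Y).indicator (fun _ => M) y ∂ν := by
    rw [integral_indicator hYm]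
    simp [mul_comm]
  rw [h2]
  refine (sub_le_self _ h1).trans ?_
  refine integral_mono_ae i3 ((integrable_const M).indicator hYm) ?_
  filter_upwards [tilt_nonneg_ae hC] with y h3
  by_cases hy : T.starProjection y ∈ Y
  · rw [indicator_of_mem (show y ∈ T.starProjection ⁻¹' Y from hy)]
    have h4 := h0 (T.starProjection y)
    have h5 := hM (T.starProjection y)
    show ψ (T.starProjection y) * (1 - FV.tilt T (P y) / 2) ≤ M
    nlinarith
  · rw [indicator_of_notMem (show y ∉ T.starProjection ⁻¹' Y from hy)]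
    show ψ (T.starProjection y) * (1 - FV.tilt T (P y) / 2) ≤ 0
    rw [hs _ hy, zero_mul]

/-- **(P1+)** the cell inequality: good part plus mass of the bad part. -/
theorem ffl_le (hI : IntCyl m T G h ν P S θ J)
    (hJ : ∀ᵐ y ∂ν, 1 - FV.tilt T (P y) / 2 - FV.tilt T (P y) ^ 2 / 2 ≤ J y) {Q : ℕ} {X A : Set E}
    (hX : MeasurableSet X) (hA : MeasurableSet A)
    (hN : ∀ᵐ x ∂((μH[m] : Measure E).restrict (T : Set E)), x ∈ X →
      sheets T S θ univ x = Q)
    {κ : ℝ} (hκ0 : 0 ≤ κ) (hκ : ∀ᵐ y ∂ν, T.starProjection y ∈ X → FV.tilt T (P y) ≤ κ)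
    {ψ : E → ℝ} (hψ : Measurable ψ) (h0 : ∀ x, 0 ≤ ψ x) {M : ℝ} (hM : ∀ x, ψ x ≤ M)
    (hs : ∀ x, x ∉ A → ψ x = 0) (hψi : IntegrableOn ψ (T : Set E) μH[m]) :
    Skel.Ffl m Q T ν P ψ ≤
      κ / 2 * ∫ y, ψ (T.starProjection y) * FV.tilt T (P y) ∂ν +
        M * ν.real (T.starProjection ⁻¹' (A \ X)) := by
  have hC := hI.stat
  have hfin := hC.fin
  have hM0 : 0 ≤ M := (h0 0).trans (hM 0)
  have hM' : ∀ x, |ψ x| ≤ M := fun x => by rw [abs_of_nonneg (h0 x)]; exact hM x
  have hti := integrable_tilt hC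
  have i2 := integrable_base hC hψ hM' hti
  have hψ1 : Measurable (X.indicator ψ) := hψ.indicator hX
  have hψ2 : Measurable (Xᶜ.indicator ψ) := hψ.indicator hX.compl
  have hsum : ∀ x, ψ x = X.indicator ψ x + Xᶜ.indicator ψ x := fun x => by
    have := congrFun (indicator_self_add_compl X ψ) x
    exact this.symm
  have hb1 : ∀ x, X.indicator ψ x ≤ M := fun x => by
    by_cases hx : x ∈ X
    · rw [indicator_of_mem hx]; exact hM x
    · rw [indicator_of_notMem hx]; exact hM0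
  have hb2 : ∀ x, Xᶜ.indicator ψ x ≤ M := fun x => by
    by_cases hx : x ∈ Xᶜ
    · rw [indicator_of_mem hx]; exact hM x
    · rw [indicator_of_notMem hx]; exact hM0
  have hn1 : ∀ x, 0 ≤ X.indicator ψ x := fun x => indicator_nonneg (fun _ _ => h0 _) x
  have hn2 : ∀ x, 0 ≤ Xᶜ.indicator ψ x := fun x => indicator_nonneg (fun _ _ => h0 _) x
  have ha1 : ∀ x, |X.indicator ψ x| ≤ M := fun x => by rw [abs_of_nonneg (hn1 x)]; exact hb1 x
  have ha2 : ∀ x, |Xᶜ.indicator ψ x| ≤ M := fun x => by rw [abs_of_nonneg (hn2 x)]; exact hb2 x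
  have p1 := pos_on hI hJ hN hκ hψ1 hn1 hb1 (fun x hx => indicator_of_notMem hx _)
  have p2 := pos_off hC (Q := Q) (Y := A \ X) (hA.diff hX) hψ2 hn2 hb2 (fun x hx => by
    by_cases hxX : x ∈ X
    · exact indicator_of_notMem (fun hc : x ∈ Xᶜ => hc hxX) _
    · rw [indicator_of_mem (show x ∈ Xᶜ from hxX)]
      exact hs x fun hxA => hx ⟨hxA, hxX⟩)
  have j1 : Integrable (fun y => X.indicator ψ (T.starProjection y) *
      (1 - FV.tilt T (P y) / 2)) ν :=
    integrable_base hC hψ1 ha1 ((integrable_const (1:ℝ)).sub (hti.div_const 2))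
  have j2 : Integrable (fun y => Xᶜ.indicator ψ (T.starProjection y) *
      (1 - FV.tilt T (P y) / 2)) ν :=
    integrable_base hC hψ2 ha2 ((integrable_const (1:ℝ)).sub (hti.div_const 2))
  have k1 : ∫ y, ψ (T.starProjection y) * (1 - FV.tilt T (P y) / 2) ∂ν =
      ∫ y, X.indicator ψ (T.starProjection y) * (1 - FV.tilt T (P y) / 2) ∂ν +
      ∫ y, Xᶜ.indicator ψ (T.starProjection y) * (1 - FV.tilt T (P y) / 2) ∂ν := by
    rw [← integral_add j1 j2]
    refine integral_congr_ae (Eventually.of_forall fun y => ?_)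
    show ψ (T.starProjection y) * (1 - FV.tilt T (P y) / 2) =
      X.indicator ψ (T.starProjection y) * (1 - FV.tilt T (P y) / 2) +
      Xᶜ.indicator ψ (T.starProjection y) * (1 - FV.tilt T (P y) / 2)
    rw [← add_mul, ← hsum]
  have k2 : ∫ x in (T : Set E), ψ x ∂μH[m] = ∫ x in (T : Set E), X.indicator ψ x ∂μH[m] +
      ∫ x in (T : Set E), Xᶜ.indicator ψ x ∂μH[m] := by
    rw [← integral_add (hψi.indicator hX) (hψi.indicator hX.compl)]
    refine integral_congr_ae (Eventually.of_forall fun x => hsum x)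
  have k3 : ∫ y, X.indicator ψ (T.starProjection y) * FV.tilt T (P y) ∂ν ≤
      ∫ y, ψ (T.starProjection y) * FV.tilt T (P y) ∂ν := by
    refine integral_mono_ae (integrable_base hC hψ1 ha1 hti) i2 ?_
    filter_upwards [tilt_nonneg_ae hC] with y h3
    refine mul_le_mul_of_nonneg_right ?_ h3
    exact indicator_le_self' (fun _ _ => h0 _) _
  unfold Skel.Ffl
  rw [k1, k2]
  have k4 : κ / 2 * ∫ y, X.indicator ψ (T.starProjection y) * FV.tilt T (P y) ∂ν ≤
      κ / 2 * ∫ y, ψ (T.starProjection y) * FV.tilt T (P y) ∂ν :=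
    mul_le_mul_of_nonneg_left k3 (by positivity)
  linarith

/-- **(P2)** local Vitali estimate: the mass over `A` is controlled by the weight of the balls. -/
theorem local_vitali [IsFiniteMeasure ν] (T : Submodule ℝ E) {w : E → ℝ≥0∞} {K : ℝ≥0∞}
    {A U : Set E} {s : E → ℝ} {s₁ : ℝ} (hpos : ∀ x ∈ A, 0 < s x) (hle : ∀ x ∈ A, s x ≤ s₁)
    (hmass : ∀ x ∈ A, ν (T.starProjection ⁻¹' closedBall x (5 * s x)) ≤
      K * ∫⁻ y in T.starProjection ⁻¹' closedBall x (s x), w y ∂ν)
    (hU : ∀ x ∈ A, closedBall x (s x) ⊆ U) (hUm : MeasurableSet U) :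
    ν (T.starProjection ⁻¹' A) ≤ K * ∫⁻ y in T.starProjection ⁻¹' U, w y ∂ν := by
  have hpm := measurable_pr T
  have h1 := BES.vitali_type (ν.map T.starProjection) (K • (ν.withDensity w).map T.starProjection)
    A U s s₁ hpos hle (fun x hx => ?_) hU
  · refine (Measure.le_map_apply hpm.aemeasurable A).trans (h1.trans (le_of_eq ?_))
    rw [Measure.smul_apply, Measure.map_apply hpm hUm, withDensity_apply _ (hpm hUm), smul_eq_mul]
  · rw [Measure.map_apply hpm measurableSet_closedBall, Measure.smul_apply,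
      Measure.map_apply hpm measurableSet_closedBall,
      withDensity_apply _ (hpm measurableSet_closedBall), smul_eq_mul]
    exact hmass x hx

/-- the largest bad scale of a nondecreasing function -/
lemma exists_bad_scale {f : ℝ → ℝ} (hf : MonotoneOn f (Ioi 0)) {τ r s₀ : ℝ}
    (hs₀ : 0 < s₀) (hs₀r : s₀ ≤ r) (hbad : τ * s₀ ^ m < f s₀) (htop : f r ≤ τ * r ^ m) :
    ∃ s, s₀ ≤ s ∧ s ≤ r ∧ τ * s ^ m ≤ f s ∧ ∀ s' ∈ Icc s r, f s' ≤ τ * s' ^ m := by
  set B : Set ℝ := {s | 0 < s ∧ s ≤ r ∧ τ * s ^ m < f s} with hB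
  have hne : B.Nonempty := ⟨s₀, hs₀, hs₀r, hbad⟩
  have hbdd : BddAbove B := ⟨r, fun s hs => hs.2.1⟩
  set σ := sSup B with hσ
  have h1 : s₀ ≤ σ := le_csSup hbdd ⟨hs₀, hs₀r, hbad⟩
  have h2 : σ ≤ r := csSup_le hne fun s hs => hs.2.1
  have hσ0 : 0 < σ := hs₀.trans_le h1
  have hcont : Continuous fun s : ℝ => τ * s ^ m := by fun_prop
  refine ⟨σ, h1, h2, ?_, ?_⟩
  · obtain ⟨u, -, -, hu1, hu2⟩ := (isLUB_csSup hne hbdd).exists_seq_monotone_tendsto hne
    have h3 : Tendsto (fun n => τ * u n ^ m) atTop (𝓝 (τ * σ ^ m)) :=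
      (hcont.tendsto σ).comp hu1
    refine le_of_tendsto h3 (Eventually.of_forall fun n => ?_)
    have h4 := hu2 n
    exact h4.2.2.le.trans (hf h4.1 hσ0 (le_csSup hbdd h4))
  · intro s' hs'
    have hgt : ∀ t, σ < t → t ≤ r → f t ≤ τ * t ^ m := by
      intro t ht htr
      by_contra hcon
      exact absurd (le_csSup hbdd (show t ∈ B from ⟨hσ0.trans ht, htr, not_le.1 hcon⟩)) (not_le.2 ht)
    rcases hs'.1.eq_or_lt with heq | hlt
    · rw [← heq]
      rcases h2.eq_or_lt with h5 | h5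
      · rw [h5]; exact htop
      · have h6 : Tendsto (fun t : ℝ => τ * t ^ m) (𝓝[>] σ) (𝓝 (τ * σ ^ m)) :=
          (hcont.tendsto σ).mono_left nhdsWithin_le_nhds
        refine ge_of_tendsto h6 ?_
        filter_upwards [Ioc_mem_nhdsGT h5] with t ht
        exact (hf hσ0 (hσ0.trans ht.1) ht.1.le).trans (hgt t ht.1 ht.2)
    · exact hgt s' hlt hs'.2

lemma setIntegral_tilt_mono (hC : CylStat m T G h ν P) {A B : Set E} (hAB : A ⊆ B) :
    ∫ y in A, FV.tilt T (P y) ∂ν ≤ ∫ y in B, FV.tilt T (P y) ∂ν :=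
  setIntegral_mono_set (integrable_tilt hC).integrableOn (ae_restrict_of_ae (tilt_nonneg_ae hC))
    hAB.eventuallyLE

/-- **(P2)** local Vitali covering of the bad set: `U` is a disjoint union of maximal bad balls
centred in `A`; the mass over `A` and the mass over `U` are controlled by the tilt excess over
`U`. -/
theorem bad_cover (hC : CylStat m T G h ν P) {A : Set E} {τ s₁ C₁ : ℝ} (hτ : 0 < τ)
    (hC₁ : 0 ≤ C₁)
    (htop : ∀ x ∈ A, Skel.exc T ν P x s₁ ≤ τ * s₁ ^ m)
    (hbad : ∀ x ∈ A, ∃ s, 0 < s ∧ s ≤ s₁ ∧ τ * s ^ m < Skel.exc T ν P x s)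
    (hmass : ∀ x ∈ A, ∀ s, 0 < s → s ≤ s₁ →
      (∀ s' ∈ Icc s s₁, Skel.exc T ν P x s' ≤ τ * s' ^ m) →
      ν.real (Skel.cylSet T x (6 * s)) ≤ C₁ * s ^ m) :
    ∃ U : Set E, MeasurableSet U ∧ (∀ u ∈ U, ∃ x ∈ A, dist u x ≤ s₁) ∧
      ν.real (T.starProjection ⁻¹' A) ≤
        C₁ / τ * ∫ y in T.starProjection ⁻¹' U, FV.tilt T (P y) ∂ν ∧
      ν.real (T.starProjection ⁻¹' U) ≤
        C₁ / τ * ∫ y in T.starProjection ⁻¹' U, FV.tilt T (P y) ∂ν := by
  have hfin := hC.fin
  have hpm := measurable_pr T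
  have hti := integrable_tilt hC
  have hex : ∀ x : E, ∃ s : ℝ, x ∈ A → 0 < s ∧ s ≤ s₁ ∧ τ * s ^ m ≤ Skel.exc T ν P x s ∧
      ν.real (Skel.cylSet T x (6 * s)) ≤ C₁ * s ^ m := by
    intro x
    by_cases hx : x ∈ A
    · obtain ⟨s₀, h0, h1, h2⟩ := hbad x hx
      have hmon : MonotoneOn (fun s => Skel.exc T ν P x s) (Ioi 0) := fun a _ b _ hab =>
        setIntegral_tilt_mono hC (fun y hy => ball_subset_ball hab hy)
      obtain ⟨s, h3, h4, h5, h6⟩ := exists_bad_scale hmon h0 h1 h2 (htop x hx)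
      exact ⟨s, fun _ => ⟨h0.trans_le h3, h4, h5, hmass x hx s (h0.trans_le h3) h4 h6⟩⟩
    · exact ⟨0, fun hx' => absurd hx' hx⟩
  choose s hs using hex
  obtain ⟨u, huA, hdisj, hcov⟩ := Vitali.exists_disjoint_subfamily_covering_enlargement_closedBall
    A (fun x => x) s s₁ (fun x hx => (hs x hx).2.1) 5 (by norm_num)
  have hcount : u.Countable := by
    refine hdisj.countable_of_nonempty_interior fun x hx => ?_
    exact ⟨x, mem_interior.2 ⟨ball x (s x), ball_subset_closedBall, isOpen_ball,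
      mem_ball_self (hs x (huA hx)).1⟩⟩
  have : Countable u := hcount.to_subtype
  set U : Set E := ⋃ x ∈ u, closedBall x (s x) with hU
  have hUm : MeasurableSet U := MeasurableSet.biUnion hcount fun x _ => measurableSet_closedBall
  set C' : u → Set E := fun x => T.starProjection ⁻¹' closedBall (x : E) (s x) with hC'
  have hC'm : ∀ x, MeasurableSet (C' x) := fun x => hpm measurableSet_closedBall
  have hC'd : Pairwise (Function.onFun Disjoint C') := by
    intro x y hxy
    have h1 : (x : E) ≠ y := fun h => hxy (Subtype.ext h)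
    exact (hdisj x.2 y.2 h1).preimage _
  have hUC : T.starProjection ⁻¹' U = ⋃ x : u, C' x := by
    rw [hU, preimage_iUnion₂, biUnion_eq_iUnion]
  -- the tilt over the balls
  have hball : ∀ x : u, s x ^ m ≤ 1 / τ * ∫ y in C' x, FV.tilt T (P y) ∂ν := by
    intro x
    have h1 := (hs x (huA x.2)).2.2.1
    have h2 : Skel.exc T ν P x (s x) ≤ ∫ y in C' x, FV.tilt T (P y) ∂ν :=
      setIntegral_tilt_mono hC (fun y hy => ball_subset_closedBall hy)
    rw [one_div, ← div_eq_inv_mul, le_div_iff₀ hτ]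
    linarith
  have hmass6 : ∀ x : u, ν.real (Skel.cylSet T x (6 * s x)) ≤
      C₁ / τ * ∫ y in C' x, FV.tilt T (P y) ∂ν := by
    intro x
    refine ((hs x (huA x.2)).2.2.2).trans ?_
    calc C₁ * s x ^ m ≤ C₁ * (1 / τ * ∫ y in C' x, FV.tilt T (P y) ∂ν) :=
          mul_le_mul_of_nonneg_left (hball x) hC₁
      _ = _ := by ring
  -- sum
  have hsumI : ∫ y in T.starProjection ⁻¹' U, FV.tilt T (P y) ∂ν =
      ∑' x : u, ∫ y in C' x, FV.tilt T (P y) ∂ν := by
    rw [hUC]
    exact integral_iUnion hC'm hC'd hti.integrableOn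
  have hsummable : Summable fun x : u => ∫ y in C' x, FV.tilt T (P y) ∂ν := by
    have := (hasSum_integral_iUnion hC'm hC'd (hti.integrableOn (s := ⋃ x, C' x)))
    exact this.summable
  have hnn : ∀ x : u, 0 ≤ ∫ y in C' x, FV.tilt T (P y) ∂ν := fun x =>
    integral_nonneg_of_ae (ae_restrict_of_ae (tilt_nonneg_ae hC))
  have hkey : ∀ D : u → Set E, (∀ x : u, D x ⊆ Skel.cylSet T x (6 * s x)) →
      ν.real (⋃ x, D x) ≤ C₁ / τ * ∑' x : u, ∫ y in C' x, FV.tilt T (P y) ∂ν := by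
    intro D hD
    have h1 : ∀ x : u, ν (D x) ≤
        ENNReal.ofReal (C₁ / τ * ∫ y in C' x, FV.tilt T (P y) ∂ν) := by
      intro x
      calc ν (D x) ≤ ν (Skel.cylSet T x (6 * s x)) := measure_mono (hD x)
        _ = ENNReal.ofReal (ν.real (Skel.cylSet T x (6 * s x))) := by rw [ofReal_measureReal]
        _ ≤ _ := ENNReal.ofReal_le_ofReal (hmass6 x)
    have h2 : ν (⋃ x, D x) ≤
        ENNReal.ofReal (C₁ / τ * ∑' x : u, ∫ y in C' x, FV.tilt T (P y) ∂ν) := by
      calc ν (⋃ x, D x) ≤ ∑' x : u, ν (D x) := measure_iUnion_le _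
        _ ≤ ∑' x : u, ENNReal.ofReal (C₁ / τ * ∫ y in C' x, FV.tilt T (P y) ∂ν) :=
            ENNReal.tsum_le_tsum h1
        _ = ENNReal.ofReal (∑' x : u, C₁ / τ * ∫ y in C' x, FV.tilt T (P y) ∂ν) := by
            rw [ENNReal.ofReal_tsum_of_nonneg _ (hsummable.mul_left _)]
            exact fun x => mul_nonneg (by positivity) (hnn x)
        _ = _ := by rw [tsum_mul_left]
    have h3 := ENNReal.toReal_mono ENNReal.ofReal_ne_top h2
    rwa [ENNReal.toReal_ofReal (mul_nonneg (by positivity) (tsum_nonneg hnn))] at h3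
  refine ⟨U, hUm, ?_, ?_, ?_⟩
  · intro z hz
    obtain ⟨x, hx, hzx⟩ := mem_iUnion₂.1 hz
    exact ⟨x, huA hx, (mem_closedBall.1 hzx).trans (hs x (huA hx)).2.1⟩
  · rw [hsumI]
    refine le_trans ?_ (hkey (fun x => T.starProjection ⁻¹' closedBall (x:E) (5 * s x)) ?_)
    · refine measureReal_mono ?_ (measure_ne_top _ _)
      rw [← preimage_iUnion]
      refine preimage_mono fun x hx => ?_
      obtain ⟨b, hb, hxb⟩ := hcov x hx
      exact mem_iUnion.2 ⟨⟨b, hb⟩, hxb (mem_closedBall_self (hs x hx).1.le)⟩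
    · intro x y hy
      have h1 := (hs x (huA x.2)).1
      exact (mem_closedBall.1 hy).trans_lt (by linarith)
  · rw [hsumI, hUC]
    refine hkey C' fun x y hy => ?_
    have h1 := (hs x (huA x.2)).1
    exact (mem_closedBall.1 hy).trans_lt (by linarith)

end Vale.Agent.P214.R2F
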