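import Vale.Agent.P214.R2F.Coll
import Vale.Agent.P214.R2F.ColProp
import Vale.Agent.P214.R2.WinSk
import Vale.Agent.P214.R2.Split

/-! # P214, block BB-C: the collapsed cells, final form (from COL) -/

open MeasureTheory Set Filter Topology Metric
open scoped ENNReal NNReal RealInnerProductSpace

set_option linter.all false

namespace Vale.Agent.P214.R2F

open Vale.Agent.P214.Skel Vale.Agent.P214.R2

variable {E : Type*} [NormedAddCommGroup E] [InnerProductSpace ℝ E] [FiniteDimensional ℝ E]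
  [MeasurableSpace E] [BorelSpace E]

/-- `Λ` beats any multiple of `log L` -/
lemma eventually_exp_lam {K : ℝ} (hK : 0 < K) (a c : ℝ) :
    ∀ᶠ L : ℝ in atTop, c * Real.exp (-lamL K L) ≤ L ^ (-a) := by
  set k : ℝ := |a| + |Real.log (|c| + 1)| + 1 with hk
  have hk0 : 0 < k := by positivity
  have h1 := eventually_log_le 1 (√(1 / (K * k))) (1 / 2) one_pos (by positivity) (by norm_num)
  filter_upwards [h1, eventually_ge_atTop (Real.exp 1)] with L hL hLe
  have hL0 : 0 < L := (Real.exp_pos 1).trans_le hLe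
  have hlog : 1 ≤ Real.log L := by rwa [Real.le_log_iff_exp_le hL0]
  have h2 : a * Real.log L + Real.log (|c| + 1) ≤ lamL K L := by
    have h3 : a * Real.log L + Real.log (|c| + 1) ≤ k * Real.log L := by
      have e1 : a * Real.log L ≤ |a| * Real.log L := by gcongr; exact le_abs_self a
      have e2 : Real.log (|c| + 1) ≤ |Real.log (|c| + 1)| * Real.log L :=
        (le_abs_self _).trans (le_mul_of_one_le_right (abs_nonneg _) hlog)
      rw [hk]; nlinarith
    refine h3.trans ?_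
    unfold lamL
    rw [le_div_iff₀ (by positivity)]
    rw [one_mul] at hL
    have h4 : Real.log L ^ 2 ≤ 1 / (K * k) * L := by
      calc Real.log L ^ 2 ≤ (√(1 / (K * k)) * L ^ ((1:ℝ) / 2)) ^ 2 := by gcongr
        _ = 1 / (K * k) * L := by
            rw [mul_pow, Real.sq_sqrt (by positivity), ← Real.rpow_natCast, ← Real.rpow_mul hL0.le]
            norm_num
    calc k * Real.log L * (K * Real.log L) = K * k * Real.log L ^ 2 := by ring
      _ ≤ K * k * (1 / (K * k) * L) := by gcongr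
      _ = L := by field_simp
  calc c * Real.exp (-lamL K L) ≤ (|c| + 1) * Real.exp (-lamL K L) := by
        gcongr; linarith [le_abs_self c]
    _ ≤ (|c| + 1) * Real.exp (-(a * Real.log L + Real.log (|c| + 1))) := by gcongr
    _ = L ^ (-a) := by
        rw [neg_add, Real.exp_add, Real.exp_neg (Real.log (|c| + 1)),
          Real.exp_log (by positivity : 0 < |c| + 1), Real.rpow_def_of_pos hL0]
        have : |c| + 1 ≠ 0 := by positivity
        field_simp

lemma om_pos (m : ℕ) : 0 < om m := by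
  have h1 := cg_pos m
  rw [cg_eq_cm] at h1
  have h2 := TCH.cm_pos m
  exact (pos_iff_pos_of_mul_pos h1).1 h2

/-- a finite net of centres, independent of the plane -/
lemma exists_net (E : Type*) [NormedAddCommGroup E] [InnerProductSpace ℝ E] [FiniteDimensional ℝ E]
    {l ρ : ℝ} (hl : 0 < l) : ∃ N : Finset E, (∀ z ∈ N, ‖z‖ ≤ ρ) ∧
    ∀ T : Submodule ℝ E, ∀ x ∈ T, ‖x‖ ≤ ρ → ∃ z ∈ N, ‖x - T.starProjection z‖ < l := by
  obtain ⟨t, ht, htf, hcov⟩ := (isCompact_closedBall (0:E) ρ).finite_cover_balls hl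
  refine ⟨htf.toFinset, fun z hz => ?_, fun T x hx hxρ => ?_⟩
  · have := ht (htf.mem_toFinset.1 hz)
    rwa [mem_closedBall, dist_zero_right] at this
  · obtain ⟨z, hz, hxz⟩ := mem_iUnion₂.1 (hcov (by
      rw [mem_closedBall, dist_zero_right]; exact hxρ : x ∈ closedBall (0:E) ρ))
    refine ⟨z, htf.mem_toFinset.2 hz, ?_⟩
    have e : x - T.starProjection z = T.starProjection (x - z) := by
      rw [map_sub, Submodule.starProjection_eq_self_iff.2 hx]
    rw [e]
    rw [mem_ball, dist_eq_norm] at hxz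
    exact (T.norm_starProjection_apply_le _).trans_lt hxz

/-- a.e. version of local collapse over a union of balls -/
lemma ae_collapse {T : Submodule ℝ E} {ν : Measure E} {r σ : ℝ} (I : Set E)
    (hI : ∀ x₀ ∈ I, HtIn T ν x₀ (8 * r) σ) {U : Set E}
    (hU : ∀ u ∈ U, ∃ x₀ ∈ I, dist u x₀ < 3 * r) :
    ∀ᵐ y ∂ν, T.starProjection y ∈ U → ∀ᵐ y' ∂ν, ‖T.starProjection (y' - y)‖ ≤ r →
      ‖FV.co T (y' - y)‖ ≤ 2 * σ := by
  obtain ⟨I', hI'I, hI'c, hI'U⟩ := TopologicalSpace.isOpen_biUnion_countable I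
    (fun x => ball x (3 * r)) (fun x _ => isOpen_ball)
  have hex : ∀ x : E, ∃ b : E, x ∈ I → ∀ᵐ y ∂ν, y ∈ cylSet T x (8 * r) → ‖FV.co T y - b‖ ≤ σ := by
    intro x
    by_cases hx : x ∈ I
    · obtain ⟨b, -, hb⟩ := hI x hx
      exact ⟨b, fun _ => hb⟩
    · exact ⟨0, fun h => absurd h hx⟩
  choose b hb using hex
  have hall : ∀ᵐ y ∂ν, ∀ x ∈ I', y ∈ cylSet T x (8 * r) → ‖FV.co T y - b x‖ ≤ σ := by
    rw [ae_ball_iff hI'c]
    exact fun x hx => hb x (hI'I hx)
  filter_upwards [hall] with y hy hyU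
  obtain ⟨x₀, hx₀, hux⟩ := hU _ hyU
  have h1 : T.starProjection y ∈ ⋃ x ∈ I', ball x (3 * r) := by
    rw [hI'U]
    exact mem_iUnion₂.2 ⟨x₀, hx₀, hux⟩
  obtain ⟨x, hx, hyx⟩ := mem_iUnion₂.1 h1
  rw [mem_ball] at hyx
  have hr : 0 < r := by
    have := dist_nonneg.trans_lt hyx; linarith
  filter_upwards [hall] with y' hy' hd
  have k1 : ‖FV.co T y - b x‖ ≤ σ := hy x hx (by
    show T.starProjection y ∈ ball x (8 * r)
    rw [mem_ball]; linarith)
  have k2 : ‖FV.co T y' - b x‖ ≤ σ := hy' x hx (by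
    show T.starProjection y' ∈ ball x (8 * r)
    rw [mem_ball]
    calc dist (T.starProjection y') x ≤ dist (T.starProjection y') (T.starProjection y) +
          dist (T.starProjection y) x := dist_triangle _ _ _
      _ < 8 * r := by
          rw [dist_eq_norm (T.starProjection y'), ← map_sub]; linarith)
  rw [map_sub]
  calc ‖FV.co T y' - FV.co T y‖ = ‖(FV.co T y' - b x) - (FV.co T y - b x)‖ := by congr 1; abel
    _ ≤ ‖FV.co T y' - b x‖ + ‖FV.co T y - b x‖ := norm_sub_le _ _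
    _ ≤ 2 * σ := by linarith

/-- COL summed over a net -/
theorem col_global (hCol : ColStmt E 2) {Q : ℕ} (hQ : 1 ≤ Q) : ∃ C ε : ℝ, 0 < C ∧ 0 < ε ∧
    ∀ (e : ℝ) (T : Submodule ℝ E) (h : ℝ) (ν : Measure E) (P : E → E →L[ℝ] E),
    Conf0 Q ε e T h ν P → ∀ (c : E) (H₀ r σ : ℝ), c ∈ Tᗮ → 0 ≤ H₀ → H₀ ≤ 1 →
    (∀ᵐ y ∂ν, y ∈ cylSet T 0 2 → ‖FV.co T y - c‖ ≤ H₀) →
    0 < r → r ≤ 1 / 16 → 0 < σ →
    ∀ I : Set E, (∀ x₀ ∈ I, HtIn T ν x₀ (8 * r) σ) →
    ∀ U : Set E, MeasurableSet U → (∀ u ∈ U, ‖u‖ ≤ 3 / 2) → (∀ u ∈ U, ∃ x₀ ∈ I, dist u x₀ < 3 * r) →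
    ∫ y in T.starProjection ⁻¹' U, FV.tilt T (P y) ∂ν ≤
      C * (σ + H₀ * e / r ^ 2) * √e + C * e * ν.real (T.starProjection ⁻¹' U) := by
  have hom := om_pos 2
  have hcm := TCH.cm_pos 2
  obtain ⟨N, hN, hcov⟩ := exists_net E (l := 1 / 16) (ρ := 3 / 2) (by norm_num)
  obtain ⟨C₀, hC₀, H⟩ := hCol (4 * (Q * om 2 + 1)) (om 2 / 2 * (1 / 32) ^ 2) (1 / 16)
    (by positivity) (by positivity) (by norm_num) (by norm_num)
  set k : ℝ := 24 * 2 / (TCH.cm 2 * (1 / 32) ^ (2 + 1)) with hk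
  have hk0 : 0 < k := by positivity
  set ε : ℝ := min 1 (om 2 / 2 / (1 + k)) with hε
  have hε0 : 0 < ε := lt_min one_pos (by positivity)
  refine ⟨2 * C₀ * (N.card + 1), ε, by positivity, hε0, ?_⟩
  intro e T h ν P hc c H₀ r σ hcT hH0 hH1 hht hr hr1 hσ I hI U hU hU1 hU2
  have hC := hc.ic.cyl
  haveI := hC.fin
  have he0 := hc.pos
  have hexe := hc.exc_le
  have he1 : e ≤ 1 := hc.le.trans (min_le_left _ _)
  have hti := integrable_tilt hC
  have hcoll := ae_collapse I hI hU2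
  -- the pieces
  set W : E → Set E := fun z => T.starProjection ⁻¹' U ∩ {y | ‖T.starProjection (y - z)‖ ≤ 1 / 16}
    with hW
  have hWm : ∀ z, MeasurableSet (W z) := by
    intro z
    refine (T.starProjection.continuous.measurable hU).inter ?_
    have : Continuous fun y => ‖T.starProjection (y - z)‖ := by fun_prop
    exact (isClosed_le this continuous_const).measurableSet
  have hstar : ∀ z : E, T.starProjection (T.starProjection z) = T.starProjection z := fun z =>
    Submodule.starProjection_eq_self_iff.2 (T.starProjection_apply_mem z)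
  have hpiece : ∀ z ∈ N, ∫ y in W z, FV.tilt T (P y) ∂ν ≤
      2 * C₀ * (σ + H₀ * e / r ^ 2) * √e + C₀ * e * ν.real (T.starProjection ⁻¹' U) := by
    intro z hz
    set z' := T.starProjection z with hz'
    have hzT : z' ∈ T := T.starProjection_apply_mem z
    have hzn : ‖z'‖ ≤ 3 / 2 := (T.norm_starProjection_apply_le z).trans (hN z hz)
    have hpz : ∀ y : E, T.starProjection (y - z') = T.starProjection (y - z) := by
      intro y; rw [map_sub, map_sub, hz', hstar]
    have hsub3 : {y | ‖T.starProjection (y - z')‖ ≤ 3 * (1 / 16)} ⊆ cylSet T 0 2 := by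
      intro y hy
      have h1 : ‖T.starProjection (y - z')‖ ≤ 3 * (1 / 16) := hy
      rw [map_sub, Submodule.starProjection_eq_self_iff.2 hzT] at h1
      show T.starProjection y ∈ ball (0:E) 2
      rw [mem_ball, dist_zero_right]
      calc ‖T.starProjection y‖ = ‖(T.starProjection y - z') + z'‖ := by congr 1; abel
        _ ≤ ‖T.starProjection y - z'‖ + ‖z'‖ := norm_add_le _ _
        _ < 2 := by linarith
    have hE : ∫ y in {y | ‖T.starProjection (y - z')‖ ≤ 3 * (1 / 16)}, FV.tilt T (P y) ∂ν ≤ e :=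
      (setIntegral_tilt_mono hC hsub3).trans hexe
    have hE0 : 0 ≤ ∫ y in {y | ‖T.starProjection (y - z')‖ ≤ 3 * (1 / 16)}, FV.tilt T (P y) ∂ν :=
      integral_nonneg_of_ae (ae_restrict_of_ae (tilt_nonneg_ae hC))
    have hmass := hc.ic.mass
    have hmain := H T (ball 0 2) h ν P hC z' hzT (fun x hx hxz => by
        rw [mem_ball, dist_zero_right]
        calc ‖x‖ = ‖(x - z') + z'‖ := by congr 1; abel
          _ ≤ ‖x - z'‖ + ‖z'‖ := norm_add_le _ _
          _ < 2 := by linarith) c H₀ r (2 * σ) hcT hH0 hH1 (by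
        filter_upwards [hht] with y hy hy'
        exact hy (hsub3 hy')) (hE.trans he1) (by
        refine (measureReal_mono hsub3).trans ?_
        have h1 := (abs_le.1 hmass).2
        have h2 : ε ≤ 1 := min_le_left _ _
        nlinarith) (by
        intro x hx hxz
        have hxn : ‖x‖ ≤ 25 / 16 := by
          calc ‖x‖ = ‖(x - z') + z'‖ := by congr 1; abel
            _ ≤ ‖x - z'‖ + ‖z'‖ := norm_add_le _ _
            _ ≤ _ := by linarith
        have h1 := TCH.mass_sub hC hc.ic.mem (by norm_num) hx (r := 1 / 32)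
          (by norm_num) (by rw [sub_zero]; linarith)
        have h2 : k * exc T ν P 0 2 + ε ≤ om 2 / 2 := by
            have h3 : ε ≤ om 2 / 2 / (1 + k) := min_le_right _ _
            calc k * exc T ν P 0 2 + ε ≤ k * ε + ε := by gcongr; exact hexe.trans hc.le
              _ = (1 + k) * ε := by ring
              _ ≤ (1 + k) * (om 2 / 2 / (1 + k)) := by gcongr
              _ = om 2 / 2 := by field_simp
        have h1' := (abs_le.1 h1).1
        rw [← hk] at h1'
        have h3 := (abs_le.1 hmass).1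
        have h4 : ν.real (cylSet T x (1 / 32)) ≤
            ν.real {y | ‖T.starProjection (y - x)‖ ≤ 1 / 16 / 2} := by
          refine measureReal_mono fun y hy => ?_
          have h5 : T.starProjection y ∈ ball x (1 / 32) := hy
          rw [mem_ball, dist_eq_norm] at h5
          show ‖T.starProjection (y - x)‖ ≤ 1 / 16 / 2
          rw [map_sub, Submodule.starProjection_eq_self_iff.2 hx]
          linarith
        refine le_trans ?_ h4
        have h6 : (1:ℝ) ≤ Q := by exact_mod_cast hQ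
        have h7 : om 2 ≤ Q * om 2 := le_mul_of_one_le_left hom.le h6
        norm_num at h1' h3 ⊢
        linarith) hr hr1 (by linarith) (W z) (hWm z) (by
        intro y hy
        show ‖T.starProjection (y - z')‖ ≤ 1 / 16
        rw [hpz]
        exact hy.2) (by
        filter_upwards [hcoll] with y hy hyW
        exact hy hyW.1)
    refine hmain.trans ?_
    have hWU : ν.real (W z) ≤ ν.real (T.starProjection ⁻¹' U) :=
      measureReal_mono inter_subset_left
    set e' := ∫ y in {y | ‖T.starProjection (y - z')‖ ≤ 3 * (1 / 16)}, FV.tilt T (P y) ∂ν with he'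
    have hs : √e' ≤ √e := Real.sqrt_le_sqrt hE
    refine add_le_add ?_ ?_
    · calc C₀ * (2 * σ + H₀ * e' / r ^ 2) * √e' ≤ C₀ * (2 * σ + H₀ * e / r ^ 2) * √e := by
            gcongr
        _ ≤ C₀ * (2 * (σ + H₀ * e / r ^ 2)) * √e := by
            have : 0 ≤ H₀ * e / r ^ 2 := by positivity
            gcongr
            linarith
        _ = _ := by ring
    · gcongr
  -- sum
  have hcover : T.starProjection ⁻¹' U ⊆ ⋃ z ∈ N, W z := by
    intro y hy
    obtain ⟨z, hz, hyz⟩ := hcov T _ (T.starProjection_apply_mem y) (hU1 _ hy)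
    refine mem_iUnion₂.2 ⟨z, hz, hy, ?_⟩
    show ‖T.starProjection (y - z)‖ ≤ 1 / 16
    rw [map_sub]; exact hyz.le
  have hsum : ∫ y in T.starProjection ⁻¹' U, FV.tilt T (P y) ∂ν ≤
      ∑ z ∈ N, ∫ y in W z, FV.tilt T (P y) ∂ν := by
    have hnn : ∀ᵐ y ∂ν, 0 ≤ FV.tilt T (P y) := tilt_nonneg_ae hC
    have h1 : ∀ s : Set E, MeasurableSet s → ∫ y in s, FV.tilt T (P y) ∂ν =
        ∫ y, s.indicator (fun y => FV.tilt T (P y)) y ∂ν := fun s hs =>
      (integral_indicator hs).symm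
    rw [h1 _ (T.starProjection.continuous.measurable hU)]
    simp_rw [h1 _ (hWm _)]
    rw [← integral_finset_sum N fun z _ => hti.indicator (hWm z)]
    refine integral_mono_ae (hti.indicator (T.starProjection.continuous.measurable hU))
      (integrable_finset_sum N fun z _ => hti.indicator (hWm z)) ?_
    filter_upwards [hnn] with y hy
    have hn : ∀ z ∈ N, 0 ≤ (W z).indicator (fun y => FV.tilt T (P y)) y := fun z _ => by
      by_cases hyz : y ∈ W z
      · rw [indicator_of_mem hyz]; exact hy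
      · rw [indicator_of_notMem hyz]
    by_cases hyU : y ∈ T.starProjection ⁻¹' U
    · rw [indicator_of_mem hyU]
      obtain ⟨z, hz, hyz⟩ := mem_iUnion₂.1 (hcover hyU)
      calc FV.tilt T (P y) = (W z).indicator (fun y => FV.tilt T (P y)) y := by
            rw [indicator_of_mem hyz]
        _ ≤ _ := Finset.single_le_sum hn hz
    · rw [indicator_of_notMem hyU]
      exact Finset.sum_nonneg hn
  refine hsum.trans ((Finset.sum_le_sum hpiece).trans ?_)
  rw [Finset.sum_const, nsmul_eq_mul]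
  have hν : 0 ≤ ν.real (T.starProjection ⁻¹' U) := measureReal_nonneg
  have hA : 0 ≤ (σ + H₀ * e / r ^ 2) * √e := by positivity
  have hB : 0 ≤ e * ν.real (T.starProjection ⁻¹' U) := by positivity
  have hcard : (0:ℝ) ≤ N.card := Nat.cast_nonneg _
  have e1 : (N.card : ℝ) * (2 * C₀ * (σ + H₀ * e / r ^ 2) * √e +
      C₀ * e * ν.real (T.starProjection ⁻¹' U)) =
      N.card * (2 * C₀) * ((σ + H₀ * e / r ^ 2) * √e) +
        N.card * C₀ * (e * ν.real (T.starProjection ⁻¹' U)) := by ring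
  have e2 : 2 * C₀ * (N.card + 1) * (σ + H₀ * e / r ^ 2) * √e +
      2 * C₀ * (N.card + 1) * e * ν.real (T.starProjection ⁻¹' U) =
      2 * C₀ * (N.card + 1) * ((σ + H₀ * e / r ^ 2) * √e) +
        2 * C₀ * (N.card + 1) * (e * ν.real (T.starProjection ⁻¹' U)) := by ring
  rw [e1, e2]
  refine add_le_add ?_ ?_
  · refine mul_le_mul_of_nonneg_right ?_ hA
    nlinarith
  · refine mul_le_mul_of_nonneg_right ?_ hB
    nlinarith

lemma final_num {C₁ C₂ A L e τ σ d : ℝ} (hC₁ : 0 < C₁) (hC₂ : 0 < C₂) (hA : 1 ≤ A) (hL : 1 ≤ L)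
    (he : 0 < e) (hd : d ≤ σ) (hτ : τ = L ^ (-A)) (hσ : σ = L ^ (-(3 * A)) * √e) :
    C₁ / τ * (C₂ * (σ + d) * √e) ≤ 3 * C₁ * C₂ * τ * e := by
  have hL0 : 0 < L := by linarith
  have hτ0 : 0 < τ := by rw [hτ]; exact Real.rpow_pos_of_pos hL0 _
  have hss : √e * √e = e := Real.mul_self_sqrt he.le
  have h1 : L ^ (-(3 * A)) / τ ≤ τ := by
    rw [div_le_iff₀ hτ0, hτ, ← Real.rpow_add hL0]
    exact Real.rpow_le_rpow_of_exponent_le hL (by linarith)
  calc C₁ / τ * (C₂ * (σ + d) * √e) ≤ C₁ / τ * (C₂ * (σ + σ) * √e) := by gcongr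
    _ = 2 * C₁ * C₂ * (L ^ (-(3 * A)) / τ) * (√e * √e) := by rw [hσ]; ring
    _ ≤ 2 * C₁ * C₂ * τ * (√e * √e) := by gcongr
    _ = 2 * (C₁ * C₂ * τ * e) := by rw [hss]; ring
    _ ≤ 3 * (C₁ * C₂ * τ * e) := by
        have : 0 ≤ C₁ * C₂ * τ * e := by positivity
        linarith
    _ = _ := by ring

/-- **(BB-C)** from COL: the fluctuation of a Borel function supported in the collapsed cells -/
theorem bbc (hCol : ColStmt E 2) {Q : ℕ} (hQ : 1 ≤ Q) {A K CH : ℝ} (hA : 1 ≤ A) (hK : 1 ≤ K)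
    (hCH : 0 ≤ CH) : ∃ C ε : ℝ, 0 < C ∧ 0 < ε ∧
    ∀ (e : ℝ) (T : Submodule ℝ E) (h : ℝ) (ν : Measure E) (P : E → E →L[ℝ] E),
    Conf Q CH ε e T h ν P → ∀ f : E → ℝ, Measurable f → (∀ x, 0 ≤ f x) → (∀ x, f x ≤ 1) →
    (∀ x ∈ T, f x ≠ 0 → ∃ x₀ ∈ T, ‖x₀‖ ≤ 9 / 8 ∧ ‖x - x₀‖ < rb K e ∧
      HtIn T ν x₀ (8 * rb K e) (sg A e)) →
    Ffl 2 Q T ν P f ≤ C * (Real.log e⁻¹) ^ (-A) * e := by
  have hK0 : 0 < K := by linarith
  obtain ⟨δ, C₁, hδ, hC₁, H₁⟩ := coll_core (E := E) 2 Q
  obtain ⟨C₂, ε₂, hC₂, hε₂, H₂⟩ := col_global hCol hQ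
  obtain ⟨ε₃, hε₃, H₃⟩ := win_top E 2 Q (by norm_num) hδ (c := 1 / 32) (by norm_num)
  obtain ⟨ε₄, hε₄, hε₄1, H₄⟩ := eventually_rb_le (K := K) (c := 1 / 96) hK (by norm_num)
  have hev : ∀ᶠ L : ℝ in atTop, 1 ≤ L ∧ 2 * Real.exp (-lamL K L) ≤ L ^ (-A) ∧
      √CH * Real.exp (-lamL K L) ≤ L ^ (-(3 * A + 1)) ∧
      C₁ * C₂ * Real.exp (-lamL K L) ≤ L ^ (-A) ∧
      CH * Real.exp (-lamL K L) ≤ L ^ (-(1:ℝ)) ∧ L ^ (-A) ≤ δ := by
    have h6 : ∀ᶠ L : ℝ in atTop, L ^ (-A) ≤ δ :=
      (tendsto_rpow_neg_atTop (by linarith : 0 < A)).eventually (ge_mem_nhds hδ)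
    filter_upwards [eventually_ge_atTop 1, eventually_exp_lam hK0 A 2,
      eventually_exp_lam hK0 (3 * A + 1) (√CH), eventually_exp_lam hK0 A (C₁ * C₂),
      eventually_exp_lam hK0 1 CH, h6] with L a1 a2 a3 a4 a5 a6
    exact ⟨a1, a2, a3, a4, a5, a6⟩
  obtain ⟨ε₅, hε₅, hε₅1, H₅⟩ := exists_eps_of_eventually hev
  set ε := min (min ε₂ (ε₃ / 2)) (min ε₄ ε₅) with hε
  have hε0 : 0 < ε := lt_min (lt_min hε₂ (by positivity)) (lt_min hε₄ hε₅)
  refine ⟨C₁ + 3 * C₁ * C₂, ε, by positivity, hε0, ?_⟩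
  intro e T h ν P hc f hf hf0 hf1 hfs
  have hC := hc.ic.cyl
  haveI := hC.fin
  have he0 := hc.pos
  have heε := hc.le
  obtain ⟨b, hbT, hb⟩ := hc.hh
  have hexe := hc.exc_le
  have k2 : ε ≤ ε₂ := (min_le_left _ _).trans (min_le_left _ _)
  have k3 : ε ≤ ε₃ / 2 := (min_le_left _ _).trans (min_le_right _ _)
  have k4 : ε ≤ ε₄ := (min_le_right _ _).trans (min_le_left _ _)
  have k5 : ε ≤ ε₅ := (min_le_right _ _).trans (min_le_right _ _)
  have hrb : rb K e ≤ 1 / 96 := H₄ e he0 (heε.trans k4)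
  obtain ⟨a1, a2, a3, a4, a5, a6⟩ := H₅ e he0 (heε.trans k5)
  have hrb0 : 0 < rb K e := rb_pos he0
  have hexp := exp_neg_mul_rb_sq (K := K) he0
  rw [← lam_eq] at a2 a3 a4 a5
  set L := Real.log e⁻¹ with hL
  set x0 := Real.exp (-lam K e) with hx0
  have hx00 : 0 < x0 := Real.exp_pos _
  set r := rb K e with hr
  have hL0 : 0 < L := by linarith
  have hex : e ≤ x0 := by
    rw [← hexp]
    have : r ^ 2 ≤ 1 := by nlinarith
    nlinarith
  set τ := L ^ (-A) with hτdef
  have hτ : 0 < τ := Real.rpow_pos_of_pos hL0 _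
  set σ := sg A e with hσdef
  have hσ : 0 < σ := mul_pos (Real.rpow_pos_of_pos hL0 _) (Real.sqrt_pos.2 he0)
  -- the heights
  set H₀ := √(CH * L * e) with hH₀
  have hH00 : 0 ≤ H₀ := Real.sqrt_nonneg _
  have hH01 : H₀ ≤ 1 := by
    rw [hH₀, Real.sqrt_le_one]
    calc CH * L * e ≤ CH * L * x0 := by gcongr
      _ = L * (CH * x0) := by ring
      _ ≤ L * L ^ (-(1:ℝ)) := by gcongr
      _ = 1 := by rw [Real.rpow_neg_one]; field_simp
  have hht : ∀ᵐ y ∂ν, y ∈ cylSet T 0 2 → ‖FV.co T y - b‖ ≤ H₀ := by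
    filter_upwards [hb] with y hy hy2
    exact Real.le_sqrt_of_sq_le (hy hy2)
  have hdrift : H₀ * e / r ^ 2 ≤ σ := by
    have e1 : e / r ^ 2 = x0 := by
      rw [← hexp]; field_simp
    rw [mul_div_assoc, e1]
    have e2 : H₀ = √CH * √L * √e := by
      rw [hH₀, Real.sqrt_mul' _ he0.le, Real.sqrt_mul' _ hL0.le]
    rw [e2]
    have e3 : √L ≤ L := by
      rw [Real.sqrt_le_left hL0.le]; nlinarith
    calc √CH * √L * √e * x0 = √L * (√CH * x0) * √e := by ring
      _ ≤ L * L ^ (-(3 * A + 1)) * √e := by gcongr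
      _ = σ := by
          rw [hσdef]
          unfold sg
          rw [← hL]
          congr 1
          have : L * L ^ (-(3 * A + 1)) = L ^ (1:ℝ) * L ^ (-(3 * A + 1)) := by rw [Real.rpow_one]
          rw [this, ← Real.rpow_add hL0]
          congr 1; ring
  -- the set
  set Aset : Set E := {x | x ∈ T ∧ f x ≠ 0} with hAset
  have hTm : MeasurableSet (T : Set E) := (Submodule.closed_of_finiteDimensional T).measurableSet
  have hAm : MeasurableSet Aset := hTm.inter (hf (measurableSet_singleton 0).compl)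
  have hAn : ∀ x ∈ Aset, ‖x‖ < 5 / 4 := by
    rintro x ⟨hx, hfx⟩
    obtain ⟨x₀, -, h1, h2, -⟩ := hfs x hx hfx
    calc ‖x‖ = ‖(x - x₀) + x₀‖ := by congr 1; abel
      _ ≤ ‖x - x₀‖ + ‖x₀‖ := norm_add_le _ _
      _ < 5 / 4 := by linarith
  set ψ : E → ℝ := Aset.indicator f with hψ
  have hψm : Measurable ψ := hf.indicator hAm
  have hψ0 : ∀ x, 0 ≤ ψ x := fun x => indicator_nonneg (fun _ _ => hf0 _) x
  have hψ1 : ∀ x, ψ x ≤ 1 := fun x => by
    by_cases hx : x ∈ Aset
    · rw [hψ, indicator_of_mem hx]; exact hf1 x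
    · rw [hψ, indicator_of_notMem hx]; exact zero_le_one
  have hψf : ∀ x ∈ T, ψ x = f x := by
    intro x hx
    by_cases hx' : x ∈ Aset
    · rw [hψ, indicator_of_mem hx']
    · rw [hψ, indicator_of_notMem hx']
      by_contra hcon
      exact hx' ⟨hx, fun h => hcon h.symm⟩
  have hψz : ∀ x, x ∉ Aset → ψ x = 0 := fun x hx => indicator_of_notMem hx _
  -- restriction to the cylinder
  set cy := cylSet T 0 2 with hcy
  have hcym : MeasurableSet cy := measurableSet_cylSet T 0 2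
  set ν' := ν.restrict cy with hν'
  obtain ⟨S, θ, -, -, -, hint⟩ := AREA.intCyl_of_skel hc.ic (A := univ)
    (Eventually.of_forall fun _ _ => mem_univ _)
  have hpm : Measurable (T.starProjection : E → E) := T.starProjection.continuous.measurable
  have hWin : ∀ x ∈ T, ‖x‖ ≤ 3 / 2 → INT.Win 2 Q δ T (ball 0 2) h ν' P S θ
      (fun y => AREA.jac (proj T) (P y)) x (1 / 16) := by
    intro x hx hxn
    refine H₃ T 0 2 h ν P (intCyl_mono_delta hc.ic (by linarith)) ?_ x hx (1 / 16) (by norm_num)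
      (by rw [sub_zero]; linarith) S θ _ hint
    have : exc T ν P 0 2 ≤ ε₃ / 2 := hexe.trans (heε.trans k3)
    nlinarith
  obtain ⟨N, hN, hcov⟩ := exists_net E (l := 1 / 16) (ρ := 3 / 2) (by norm_num)
  have hJ : ∀ᵐ y ∂ν', 1 - FV.tilt T (P y) / 2 - FV.tilt T (P y) ^ 2 / 2 ≤
      AREA.jac (proj T) (P y) := by
    filter_upwards [ae_restrict_of_ae hC.proj] with y hy
    obtain ⟨L', hL', hPL⟩ := hy
    rw [hPL]
    exact (AREA.jac_bounds hL' hC.dimT).2.2.2.1
  have hexcr : ∀ x s, exc T ν' P x s ≤ exc T ν P x s := by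
    intro x s
    unfold exc
    refine integral_mono_measure (Measure.restrict_mono_measure Measure.restrict_le_self _)
      (ae_restrict_of_ae (tilt_nonneg_ae hC)) (integrable_tilt hC).integrableOn
  have hcore := H₁ T (T.starProjection ⁻¹' (ball 0 2)) h ν' P S θ
    (fun y => AREA.jac (proj T) (P y)) (1 / 16) ((fun z => T.starProjection z) '' (N : Set E))
    ((N.finite_toSet.image _).countable) (by
      rintro _ ⟨z, hz, rfl⟩
      refine ⟨T.starProjection_apply_mem z, ?_⟩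
      exact (hWin _ (T.starProjection_apply_mem z)
        ((T.norm_starProjection_apply_le z).trans (hN z hz))).dat) hint.pre hJ τ r
    (C₂ * (σ + H₀ * e / r ^ 2) * √e) (C₂ * e) hτ a6 hrb0 (by linarith) (by positivity) (by
      calc C₁ * (C₂ * e) = C₁ * C₂ * e := by ring
        _ ≤ C₁ * C₂ * x0 := by gcongr
        _ ≤ τ := a4) Aset hAm (fun x hx => hx.1) (by
      intro x hx
      obtain ⟨z, hz, hxz⟩ := hcov T x hx.1 (by linarith [hAn x hx])
      exact ⟨_, ⟨z, hz, rfl⟩, by rw [mem_ball, dist_eq_norm]; exact hxz⟩) (by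
      intro x hx s hs hs2
      have hs0 : 0 < s := hrb0.trans_le hs
      have h1 : exc T ν P x s ≤ e := (exc_mono hC (by
        rw [dist_zero_right]; linarith [hAn x hx])).trans hexe
      calc 2 * exc T ν' P x s ≤ 2 * e := by linarith [hexcr x s]
        _ = 2 * x0 * r ^ 2 := by rw [← hexp]; ring
        _ ≤ τ * s ^ 2 := by gcongr) (by
      intro U hU hUA
      have hU1 : ∀ u ∈ U, ‖u‖ ≤ 3 / 2 := by
        intro u hu
        obtain ⟨x, hx, hux⟩ := hUA u hu
        rw [dist_eq_norm] at hux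
        calc ‖u‖ = ‖(u - x) + x‖ := by congr 1; abel
          _ ≤ ‖u - x‖ + ‖x‖ := norm_add_le _ _
          _ ≤ 3 / 2 := by linarith [hAn x hx]
      have hUc : T.starProjection ⁻¹' U ∩ cy = T.starProjection ⁻¹' U := by
        refine inter_eq_left.2 fun y hy => ?_
        show T.starProjection y ∈ ball (0:E) 2
        rw [mem_ball, dist_zero_right]
        linarith [hU1 _ hy]
      have e1 : ν'.restrict (T.starProjection ⁻¹' U) = ν.restrict (T.starProjection ⁻¹' U) := by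
        rw [hν', Measure.restrict_restrict (hpm hU), hUc]
      have e2 : ν'.real (T.starProjection ⁻¹' U) = ν.real (T.starProjection ⁻¹' U) := by
        rw [measureReal_def, measureReal_def, hν', Measure.restrict_apply (hpm hU), hUc]
      rw [e1, e2]
      exact H₂ e T h ν P ⟨intCyl_mono_delta hc.ic k2, he0, heε.trans k2, hexe⟩ b H₀ r σ hbT hH00 hH01 hht hrb0 (by linarith) hσ
        {x₀ | HtIn T ν x₀ (8 * r) σ} (fun x hx => hx) U hU hU1 (by
          intro u hu
          obtain ⟨x, hx, hux⟩ := hUA u hu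
          obtain ⟨x₀, -, -, h2, h3⟩ := hfs x hx.1 hx.2
          refine ⟨x₀, h3, ?_⟩
          calc dist u x₀ ≤ dist u x + dist x x₀ := dist_triangle _ _ _
            _ < 3 * r := by rw [dist_eq_norm x]; linarith))
    ψ hψm hψ0 hψ1 hψz (by
      have h1 : IntegrableOn ψ ((T : Set E) ∩ closedBall 0 (5 / 4)) (μH[2] : Measure E) := by
        refine Measure.integrableOn_of_bounded (M := 1)
          (DEN.locallyFinite_plane (m := 2) hC.dimT _).ne hψm.aestronglyMeasurable
          (ae_of_all _ fun x => ?_)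
        rw [Real.norm_eq_abs, abs_of_nonneg (hψ0 x)]; exact hψ1 x
      refine IntegrableOn.of_forall_diff_eq_zero h1 hTm ?_
      rintro x ⟨hx, hx'⟩
      refine hψz x fun hxA => hx' ⟨hx, ?_⟩
      rw [mem_closedBall, dist_zero_right]
      exact (hAn x hxA).le)
  -- back to `f` and `ν`
  have hFfl : Ffl 2 Q T ν P f = Ffl 2 Q T ν' P ψ := by
    unfold Ffl
    congr 1
    · have h1 : ∀ y, ψ (T.starProjection y) = f (T.starProjection y) := fun y =>
        hψf _ (T.starProjection_apply_mem y)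
      simp_rw [h1]
      rw [hν']
      refine (setIntegral_eq_integral_of_forall_compl_eq_zero fun y hy => ?_).symm
      rw [← h1, hψz _ fun hA' => hy ?_, zero_mul]
      show T.starProjection y ∈ ball (0:E) 2
      rw [mem_ball, dist_zero_right]
      linarith [hAn _ hA']
    · congr 1
      refine setIntegral_congr_fun hTm fun x hx => (hψf x hx).symm
  rw [hFfl]
  refine hcore.trans ?_
  have htilt : ∫ y, ψ (T.starProjection y) * FV.tilt T (P y) ∂ν' ≤ e := by
    rw [hν']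
    refine le_trans ?_ hexe
    refine integral_mono_ae ?_ (integrable_tilt hC).integrableOn ?_
    · refine (integrable_tilt hC).integrableOn.bdd_mul (c := 1)
        (hψm.comp hpm).aestronglyMeasurable (Eventually.of_forall fun y => ?_)
      rw [Real.norm_of_nonneg (hψ0 _)]; exact hψ1 _
    · filter_upwards [ae_restrict_of_ae (tilt_nonneg_ae hC)] with y hy
      exact mul_le_of_le_one_left hy (hψ1 _)
  have hD : C₁ / τ * (C₂ * (σ + H₀ * e / r ^ 2) * √e) ≤ 3 * C₁ * C₂ * τ * e :=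
    final_num hC₁ hC₂ hA a1 he0 hdrift rfl rfl
  calc C₁ * τ * ∫ y, ψ (T.starProjection y) * FV.tilt T (P y) ∂ν' +
        C₁ / τ * (C₂ * (σ + H₀ * e / r ^ 2) * √e) ≤ C₁ * τ * e + 3 * C₁ * C₂ * τ * e := by
        gcongr
    _ = (C₁ + 3 * C₁ * C₂) * τ * e := by ring

/-- **BoxC** from COL, for every notion of splitting -/
theorem boxC_of (hCol : ColStmt E 2) {Q : ℕ} (hQ : 1 ≤ Q)
    (Sp : Submodule ℝ E → Measure E → (E → E →L[ℝ] E) → E → ℝ → Prop) : BoxC Sp Q := by
  intro CH A K hA hK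
  obtain ⟨C, ε, hC, hε, H⟩ := bbc hCol hQ hA hK (le_max_right CH 0)
  refine ⟨C, min ε 1, hC, lt_min hε one_pos, ?_⟩
  intro e T h ν P hc f hf hf0 hf1 hfs
  have he0 := hc.pos
  have hee := hc.le
  have he1 : e ≤ 1 := hee.trans (min_le_right _ _)
  have hL0 : 0 ≤ Real.log e⁻¹ := Real.log_nonneg ((one_le_inv₀ he0).2 he1)
  refine H e T h ν P ⟨⟨intCyl_mono_delta hc.ic (min_le_left _ _), he0,
    hee.trans (min_le_left _ _), hc.exc_le⟩, ?_⟩ f hf hf0 hf1 fun x hx hfx => ?_
  · obtain ⟨b, hb, hbb⟩ := hc.hh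
    refine ⟨b, hb, ?_⟩
    filter_upwards [hbb] with y hy hy2
    refine (hy hy2).trans ?_
    have := le_max_left CH 0
    gcongr
  · obtain ⟨x₀, h1, h2, h3, -, h4⟩ := hfs x hx hfx
    exact ⟨x₀, h1, h2, h3, h4⟩

end Vale.Agent.P214.R2F
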