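import Vale.Agent.P214.R2F.Coll
import Vale.Agent.P214.R2.WinSk
import Vale.Agent.P214.R2.Split

/-! # P214, block BB-C, part A: parameters, net, collapse almost everywhere -/

open MeasureTheory Set Filter Topology Metric
open scoped ENNReal NNReal RealInnerProductSpace

set_option linter.all false

namespace Vale.Agent.P214.R2F

open Vale.Agent.P214.Skel Vale.Agent.P214.R2

variable {E : Type*} [NormedAddCommGroup E] [InnerProductSpace ℝ E] [FiniteDimensional ℝ E]
  [MeasurableSpace E] [BorelSpace E]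

/-- `Λ` beats any multiple of `log L` -/
lemma eventually_exp_lam {K : ℝ} (hK : 0 < K) (a c : ℝ) :
    ∀ᶠ L : ℝ in atTop, c * Real.exp (-lamL K L) ≤ L ^ (-a) := by
  set k : ℝ := |a| + |Real.log (|c| + 1)| + 1 with hk
  have hk0 : 0 < k := by positivity
  have h1 := eventually_log_le 1 (√(1 / (K * k))) (1 / 2) one_pos (by positivity) (by norm_num)
  filter_upwards [h1, eventually_ge_atTop (Real.exp 1)] with L hL hLe
  have hL0 : 0 < L := (Real.exp_pos 1).trans_le hLe
  have hlog : 1 ≤ Real.log L := by rwa [Real.le_log_iff_exp_le hL0]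
  have h2 : a * Real.log L + Real.log (|c| + 1) ≤ lamL K L := by
    have h3 : a * Real.log L + Real.log (|c| + 1) ≤ k * Real.log L := by
      have e1 : a * Real.log L ≤ |a| * Real.log L := by gcongr; exact le_abs_self a
      have e2 : Real.log (|c| + 1) ≤ |Real.log (|c| + 1)| * Real.log L :=
        (le_abs_self _).trans (le_mul_of_one_le_right (abs_nonneg _) hlog)
      rw [hk]; nlinarith
    refine h3.trans ?_
    unfold lamL
    rw [le_div_iff₀ (by positivity)]
    rw [one_mul] at hL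
    have h4 : Real.log L ^ 2 ≤ 1 / (K * k) * L := by
      calc Real.log L ^ 2 ≤ (√(1 / (K * k)) * L ^ ((1:ℝ) / 2)) ^ 2 := by gcongr
        _ = 1 / (K * k) * L := by
            rw [mul_pow, Real.sq_sqrt (by positivity), ← Real.rpow_natCast, ← Real.rpow_mul hL0.le]
            norm_num
    calc k * Real.log L * (K * Real.log L) = K * k * Real.log L ^ 2 := by ring
      _ ≤ K * k * (1 / (K * k) * L) := by gcongr
      _ = L := by field_simp
  calc c * Real.exp (-lamL K L) ≤ (|c| + 1) * Real.exp (-lamL K L) := by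
        gcongr; linarith [le_abs_self c]
    _ ≤ (|c| + 1) * Real.exp (-(a * Real.log L + Real.log (|c| + 1))) := by gcongr
    _ = L ^ (-a) := by
        rw [neg_add, Real.exp_add, Real.exp_neg (Real.log (|c| + 1)),
          Real.exp_log (by positivity : 0 < |c| + 1), Real.rpow_def_of_pos hL0]
        have : |c| + 1 ≠ 0 := by positivity
        field_simp

lemma om_pos (m : ℕ) : 0 < om m := by
  have h1 := cg_pos m
  rw [cg_eq_cm] at h1
  have h2 := TCH.cm_pos m
  exact (pos_iff_pos_of_mul_pos h1).1 h2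

/-- a finite net of centres, independent of the plane -/
lemma exists_net (E : Type*) [NormedAddCommGroup E] [InnerProductSpace ℝ E] [FiniteDimensional ℝ E]
    {l ρ : ℝ} (hl : 0 < l) : ∃ N : Finset E, (∀ z ∈ N, ‖z‖ ≤ ρ) ∧
    ∀ T : Submodule ℝ E, ∀ x ∈ T, ‖x‖ ≤ ρ → ∃ z ∈ N, ‖x - T.starProjection z‖ < l := by
  obtain ⟨t, ht, htf, hcov⟩ := (isCompact_closedBall (0:E) ρ).finite_cover_balls hl
  refine ⟨htf.toFinset, fun z hz => ?_, fun T x hx hxρ => ?_⟩
  · have := ht (htf.mem_toFinset.1 hz)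
    rwa [mem_closedBall, dist_zero_right] at this
  · obtain ⟨z, hz, hxz⟩ := mem_iUnion₂.1 (hcov (by
      rw [mem_closedBall, dist_zero_right]; exact hxρ : x ∈ closedBall (0:E) ρ))
    refine ⟨z, htf.mem_toFinset.2 hz, ?_⟩
    have e : x - T.starProjection z = T.starProjection (x - z) := by
      rw [map_sub, Submodule.starProjection_eq_self_iff.2 hx]
    rw [e]
    rw [mem_ball, dist_eq_norm] at hxz
    exact (T.norm_starProjection_apply_le _).trans_lt hxz

/-- a.e. version of local collapse over a union of balls -/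
lemma ae_collapse {T : Submodule ℝ E} {ν : Measure E} {r σ : ℝ} (I : Set E)
    (hI : ∀ x₀ ∈ I, HtIn T ν x₀ (8 * r) σ) {U : Set E}
    (hU : ∀ u ∈ U, ∃ x₀ ∈ I, dist u x₀ < 3 * r) :
    ∀ᵐ y ∂ν, T.starProjection y ∈ U → ∀ᵐ y' ∂ν, ‖T.starProjection (y' - y)‖ ≤ r →
      ‖FV.co T (y' - y)‖ ≤ 2 * σ := by
  obtain ⟨I', hI'I, hI'c, hI'U⟩ := TopologicalSpace.isOpen_biUnion_countable I
    (fun x => ball x (3 * r)) (fun x _ => isOpen_ball)
  have hex : ∀ x : E, ∃ b : E, x ∈ I → ∀ᵐ y ∂ν, y ∈ cylSet T x (8 * r) → ‖FV.co T y - b‖ ≤ σ := by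
    intro x
    by_cases hx : x ∈ I
    · obtain ⟨b, -, hb⟩ := hI x hx
      exact ⟨b, fun _ => hb⟩
    · exact ⟨0, fun h => absurd h hx⟩
  choose b hb using hex
  have hall : ∀ᵐ y ∂ν, ∀ x ∈ I', y ∈ cylSet T x (8 * r) → ‖FV.co T y - b x‖ ≤ σ := by
    rw [ae_ball_iff hI'c]
    exact fun x hx => hb x (hI'I hx)
  filter_upwards [hall] with y hy hyU
  obtain ⟨x₀, hx₀, hux⟩ := hU _ hyU
  have h1 : T.starProjection y ∈ ⋃ x ∈ I', ball x (3 * r) := by
    rw [hI'U]
    exact mem_iUnion₂.2 ⟨x₀, hx₀, hux⟩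
  obtain ⟨x, hx, hyx⟩ := mem_iUnion₂.1 h1
  rw [mem_ball] at hyx
  have hr : 0 < r := by
    have := dist_nonneg.trans_lt hyx; linarith
  filter_upwards [hall] with y' hy' hd
  have k1 : ‖FV.co T y - b x‖ ≤ σ := hy x hx (by
    show T.starProjection y ∈ ball x (8 * r)
    rw [mem_ball]; linarith)
  have k2 : ‖FV.co T y' - b x‖ ≤ σ := hy' x hx (by
    show T.starProjection y' ∈ ball x (8 * r)
    rw [mem_ball]
    calc dist (T.starProjection y') x ≤ dist (T.starProjection y') (T.starProjection y) +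
          dist (T.starProjection y) x := dist_triangle _ _ _
      _ < 8 * r := by
          rw [dist_eq_norm (T.starProjection y'), ← map_sub]; linarith)
  rw [map_sub]
  calc ‖FV.co T y' - FV.co T y‖ = ‖(FV.co T y' - b x) - (FV.co T y - b x)‖ := by congr 1; abel
    _ ≤ ‖FV.co T y' - b x‖ + ‖FV.co T y - b x‖ := norm_sub_le _ _
    _ ≤ 2 * σ := by linarith

end Vale.Agent.P214.R2F
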