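import Vale.Agent.P214.R2F.BoxA
import Vale.Agent.P214.TP.Main

/-! # P214, block BB-C, part B: the tilt over the collapsed set, from the two-point slab lemma -/

open MeasureTheory Set Filter Topology Metric
open scoped ENNReal NNReal RealInnerProductSpace

set_option linter.all false

namespace Vale.Agent.P214.R2F

open Vale.Agent.P214.Skel Vale.Agent.P214.R2

variable {E : Type*} [NormedAddCommGroup E] [InnerProductSpace ℝ E] [FiniteDimensional ℝ E]
  [MeasurableSpace E] [BorelSpace E]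

lemma ker_star (T : Submodule ℝ E) (ρ : ℝ) (v : E) :
    TP.ker T ρ (T.starProjection v) = TP.ker T ρ v := by
  unfold TP.ker
  rw [Submodule.starProjection_eq_self_iff.2 (T.starProjection_apply_mem v)]

lemma ker_lip (T : Submodule ℝ E) {ρ : ℝ} (hρ : 0 < ρ) (v v' : E) :
    |TP.ker T ρ v - TP.ker T ρ v'| ≤ 4 / ρ * ‖T.starProjection (v - v')‖ := by
  rw [← ker_star T ρ v, ← ker_star T ρ v', map_sub, ← Real.norm_eq_abs]
  exact Convex.norm_image_sub_le_of_norm_fderiv_le (𝕜 := ℝ) (f := TP.ker T ρ) (s := univ)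
    (fun x _ => (TP.hasFDerivAt_ker x).differentiableAt)
    (fun x _ => TP.norm_fderiv_ker_le hρ x) convex_univ (mem_univ _) (mem_univ _)

lemma sqrt_le_avg {e t : ℝ} (he : 0 < e) (ht : 0 ≤ t) : √t ≤ (t / √e + √e) / 2 := by
  have hse : 0 < √e := Real.sqrt_pos.2 he
  have h1 := sq_nonneg (√t - √e)
  have h2 := Real.sq_sqrt ht
  rw [le_div_iff₀ (by norm_num), ← sub_nonneg]
  have h3 : t / √e + √e - √t * 2 = (√t - √e) ^ 2 / √e := by
    field_simp
    linear_combination (-1) * h2
  rw [h3]; positivity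

/-- error terms of the slab lemma -/
lemma err_terms {m : ℕ} {T : Submodule ℝ E} {G : Set E} {h : ℝ} {ν : Measure E}
    {P : E → E →L[ℝ] E} (hC : FV.CylStat m T G h ν P) {e B : ℝ} (he0 : 0 < e)
    (hexe : exc T ν P 0 2 ≤ e) (hνc : ν.real (cylSet T 0 2) ≤ B) (f : E → ℝ) (b : ℝ)
    (hf0 : ∀ z, 0 ≤ f z) (hfb : ∀ z, f z ≤ b) (hz : ∀ z, z ∉ cylSet T 0 2 → f z = 0)
    (hb0 : 0 ≤ b) :
    ∫ z, f z * FV.tilt T (P z) ∂ν ≤ b * e ∧
      ∫ z, f z * √(FV.tilt T (P z)) ∂ν ≤ b * (√e * (1 + B)) := by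
  haveI := hC.fin
  have hti := integrable_tilt hC
  have hcm := measurableSet_cylSet T (0:E) 2
  have hse : 0 < √e := Real.sqrt_pos.2 he0
  have hνc0 : 0 ≤ ν.real (cylSet T 0 2) := measureReal_nonneg
  constructor
  · have h1 : ∫ z, f z * FV.tilt T (P z) ∂ν ≤ ∫ z in cylSet T 0 2, b * FV.tilt T (P z) ∂ν := by
      rw [← integral_indicator hcm]
      refine integral_mono_of_nonneg ?_ ((hti.const_mul b).indicator hcm) ?_
      · filter_upwards [tilt_nonneg_ae hC] with z ht using mul_nonneg (hf0 z) ht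
      · filter_upwards [tilt_nonneg_ae hC] with z ht
        by_cases hzc : z ∈ cylSet T 0 2
        · rw [indicator_of_mem hzc]
          exact mul_le_mul_of_nonneg_right (hfb z) ht
        · rw [indicator_of_notMem hzc]
          show f z * FV.tilt T (P z) ≤ 0
          rw [hz z hzc, zero_mul]
    rw [integral_const_mul] at h1
    refine h1.trans ?_
    have h2 : ∫ z in cylSet T 0 2, FV.tilt T (P z) ∂ν ≤ e := hexe
    gcongr
  · have h1 : ∫ z, f z * √(FV.tilt T (P z)) ∂ν ≤
        ∫ z in cylSet T 0 2, b * ((FV.tilt T (P z) / √e + √e) / 2) ∂ν := by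
      rw [← integral_indicator hcm]
      refine integral_mono_of_nonneg (Eventually.of_forall fun z =>
        mul_nonneg (hf0 z) (Real.sqrt_nonneg _)) ?_ ?_
      · exact ((((hti.div_const _).add (integrable_const _)).div_const 2).const_mul b).indicator hcm
      · filter_upwards [tilt_nonneg_ae hC] with z ht
        by_cases hzc : z ∈ cylSet T 0 2
        · rw [indicator_of_mem hzc]
          exact mul_le_mul (hfb z) (sqrt_le_avg he0 ht) (Real.sqrt_nonneg _) hb0
        · rw [indicator_of_notMem hzc]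
          show f z * √(FV.tilt T (P z)) ≤ 0
          rw [hz z hzc, zero_mul]
    refine h1.trans ?_
    rw [integral_const_mul, integral_div]
    have h2 : ∫ z in cylSet T 0 2, (FV.tilt T (P z) / √e + √e) ∂ν =
        (∫ z in cylSet T 0 2, FV.tilt T (P z) ∂ν) / √e + √e * ν.real (cylSet T 0 2) := by
      rw [integral_add (hti.integrableOn.div_const _) (integrable_const _), integral_div,
        setIntegral_const, smul_eq_mul, mul_comm (ν.real _)]
    rw [h2]
    have h3 : (∫ z in cylSet T 0 2, FV.tilt T (P z) ∂ν) / √e ≤ √e := by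
      rw [div_le_iff₀ hse, Real.mul_self_sqrt he0.le]
      exact hexe
    have h4 : √e * ν.real (cylSet T 0 2) ≤ √e * B := by gcongr
    have h5 : ((∫ z in cylSet T 0 2, FV.tilt T (P z) ∂ν) / √e + √e * ν.real (cylSet T 0 2)) / 2 ≤
        √e * (1 + B) := by
      have h6 : 0 ≤ √e * (1 + B) := by
        have : 0 ≤ B := hνc0.trans hνc
        positivity
      nlinarith
    gcongr

/-- from a class of points of large tilt to everything -/
lemma class_all {m : ℕ} {T : Submodule ℝ E} {G : Set E} {h : ℝ} {ν : Measure E}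
    {P : E → E →L[ℝ] E} (hC : FV.CylStat m T G h ν P) {A Cls : Set E} (hA : MeasurableSet A)
    (hCls : NullMeasurableSet Cls ν) (hsub : Cls ⊆ A) {κ₀ d : ℝ} (hκ : 0 < κ₀) (hd : 0 ≤ d)
    {ψ : E → ℝ} (hψC : IntegrableOn (fun z => ψ z * FV.tilt T (P z)) Cls ν)
    (hψ1 : ∀ z ∈ A, κ₀ ≤ ψ z) (hrest : ∀ z ∈ A, z ∉ Cls → FV.tilt T (P z) ≤ d) :
    ∫ y in A, FV.tilt T (P y) ∂ν ≤
      κ₀⁻¹ * ∫ z in Cls, ψ z * FV.tilt T (P z) ∂ν + d * ν.real A := by
  haveI := hC.fin
  have e1 : κ₀⁻¹ * ∫ z in Cls, ψ z * FV.tilt T (P z) ∂ν =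
      ∫ z, Cls.indicator (fun z => κ₀⁻¹ * (ψ z * FV.tilt T (P z))) z ∂ν := by
    rw [integral_indicator₀ hCls, integral_const_mul]
  have e2 : d * ν.real A = ∫ z, A.indicator (fun _ => d) z ∂ν := by
    rw [integral_indicator hA, setIntegral_const, smul_eq_mul, mul_comm]
  have hi1 : Integrable (Cls.indicator (fun z => κ₀⁻¹ * (ψ z * FV.tilt T (P z)))) ν :=
    IntegrableOn.integrable_indicator₀ (hψC.const_mul _) hCls
  have hi2 : Integrable (A.indicator (fun _ : E => d)) ν := (integrable_const _).indicator hA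
  rw [e1, e2, ← integral_indicator hA, ← integral_add hi1 hi2]
  refine integral_mono_of_nonneg ?_ (hi1.add hi2) ?_
  · filter_upwards [tilt_nonneg_ae hC] with z ht
    exact indicator_nonneg (fun _ _ => ht) z
  · filter_upwards [tilt_nonneg_ae hC] with z ht
    by_cases hzU : z ∈ A
    · rw [indicator_of_mem hzU]
      show FV.tilt T (P z) ≤ Cls.indicator (fun z => κ₀⁻¹ * (ψ z * FV.tilt T (P z))) z +
        A.indicator (fun _ => d) z
      rw [indicator_of_mem hzU]
      by_cases hzc : z ∈ Cls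
      · rw [indicator_of_mem hzc]
        have h2 : FV.tilt T (P z) ≤ κ₀⁻¹ * (ψ z * FV.tilt T (P z)) := by
          rw [← mul_assoc]
          refine le_mul_of_one_le_left ht ?_
          rw [inv_mul_eq_div, one_le_div hκ]
          exact hψ1 z hzU
        linarith
      · rw [indicator_of_notMem hzc, zero_add]
        exact hrest z hzU hzc
    · rw [indicator_of_notMem hzU]
      show 0 ≤ Cls.indicator (fun z => κ₀⁻¹ * (ψ z * FV.tilt T (P z))) z +
        A.indicator (fun _ => d) z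
      rw [indicator_of_notMem hzU, indicator_of_notMem fun h => hzU (hsub h), add_zero]

/-- arithmetic of the constants -/
lemma num_V {V c₀ r M₀ σ e B : ℝ} (hc₀ : 0 < c₀) (hr : 0 < r) (hM : 0 < M₀) (hσ : 0 < σ)
    (he : 0 < e) (hB : 1 ≤ B)
    (h1 : c₀ * r ^ 2 * V ≤ 500 * (M₀ * r ^ 2) * (2 * σ * (4 * (√e * B)) +
        2 * σ / r * (1 * e) + r * (4 * e))) :
    V ≤ 500 * M₀ / c₀ * (3 * B) * (4 * (σ * √e + (σ / r + r) * e)) := by
  have hcpos : 0 < c₀ * r ^ 2 := by positivity
  have h2 : V ≤ 500 * M₀ / c₀ * (2 * σ * (4 * (√e * B)) + 2 * σ / r * (1 * e) + r * (4 * e)) := by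
    rw [← mul_le_mul_iff_right₀ hcpos]
    refine h1.trans (le_of_eq ?_)
    field_simp
  refine h2.trans ?_
  rw [mul_assoc (500 * M₀ / c₀)]
  refine mul_le_mul_of_nonneg_left ?_ (by positivity)
  have p1 : 0 ≤ σ * √e := by positivity
  have p2 : 0 ≤ σ / r * e := by positivity
  have p3 : 0 ≤ r * e := by positivity
  have e1 : 2 * σ * (4 * (√e * B)) + 2 * σ / r * (1 * e) + r * (4 * e) =
      8 * B * (σ * √e) + 2 * (σ / r * e) + 4 * (r * e) := by ring
  have e2 : 3 * B * (4 * (σ * √e + (σ / r + r) * e)) =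
      12 * B * (σ * √e) + 12 * B * (σ / r * e) + 12 * B * (r * e) := by ring
  rw [e1, e2]
  have q1 : 8 * B * (σ * √e) ≤ 12 * B * (σ * √e) := by gcongr; norm_num
  have q2 : 2 * (σ / r * e) ≤ 12 * B * (σ / r * e) := by gcongr; linarith
  have q3 : 4 * (r * e) ≤ 12 * B * (r * e) := by gcongr; linarith
  linarith

/-- the tilt of the points of large tilt over the collapsed set -/
theorem tp_class {Q : ℕ} (hQ : 1 ≤ Q) : ∃ C c₀ ε : ℝ, 0 < C ∧ 0 < c₀ ∧ 0 < ε ∧
    ∀ (e : ℝ) (T : Submodule ℝ E) (h : ℝ) (ν : Measure E) (P : E → E →L[ℝ] E),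
    Conf0 Q ε e T h ν P → ∀ r σ : ℝ, 0 < r → r ≤ 1 / 96 → 0 < σ → 8 * σ ≤ r → e ≤ ε * r ^ 2 →
    ∀ I : Set E, (∀ x₀ ∈ I, HtIn T ν x₀ (8 * r) σ) →
    ∀ U : Set E, MeasurableSet U → (∀ u ∈ U, ‖u‖ ≤ 21 / 16) →
    (∀ u ∈ U, ∃ x₀ ∈ I, dist u x₀ < 3 * r) →
    NullMeasurableSet (T.starProjection ⁻¹' U ∩ {z | 8 * e / (c₀ * r ^ 2) ≤ FV.tilt T (P z)}) ν ∧
    ∫ z in T.starProjection ⁻¹' U ∩ {z | 8 * e / (c₀ * r ^ 2) ≤ FV.tilt T (P z)},
      TP.ker T (23 / 16) z * FV.tilt T (P z) ∂ν ≤ C * (σ * √e + (σ / r + r) * e) := by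
  have hom := om_pos 2
  obtain ⟨δ₁, hδ₁, H₁⟩ := intCyl_down E 2 Q (by norm_num) (δ' := om 2 / 2) (by positivity)
  set ε : ℝ := min (min 1 (δ₁ / 4)) δ₁ with hε
  have hε0 : 0 < ε := by positivity
  have hQ0 : (1:ℝ) ≤ Q := by exact_mod_cast hQ
  set M₀ : ℝ := Q * om 2 + om 2 / 2 with hM₀
  have hM₀0 : 0 < M₀ := by positivity
  set c₀ : ℝ := om 2 / 8 with hc₀
  have hc₀0 : 0 < c₀ := by positivity
  set K₀ : ℝ := 500 * M₀ / c₀ with hK₀
  have hK₀0 : 0 < K₀ := by positivity
  set C : ℝ := 4 * (K₀ * (3 * (1 + (4 * M₀ + 4)))) with hCdef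
  have hC0 : 0 < C := by positivity
  refine ⟨C, c₀, ε, hC0, hc₀0, hε0, ?_⟩
  intro e T h ν P hc r σ hr hr1 hσ hσr her I hI U hU hU1 hU2
  have hC := hc.ic.cyl
  haveI := hC.fin
  have he0 := hc.pos
  have hexe := hc.exc_le
  have hε1 : ε ≤ 1 := (min_le_left _ _).trans (min_le_left _ _)
  have hε2 : ε ≤ δ₁ / 4 := (min_le_left _ _).trans (min_le_right _ _)
  have hε3 : ε ≤ δ₁ := min_le_right _ _
  have he1 : e ≤ 1 := hc.le.trans hε1
  have hti := integrable_tilt hC
  have hpm : Measurable (T.starProjection : E → E) := T.starProjection.continuous.measurable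
  have hcoll := ae_collapse I hI hU2
  -- excess and mass at the scales `≥ r/2`
  have hexc : ∀ x : E, ‖x‖ ≤ 3 / 2 → ∀ s, s ≤ 1 / 8 → exc T ν P x s ≤ e := by
    intro x hx s hs
    exact (exc_mono hC (by rw [dist_zero_right]; linarith)).trans hexe
  have hmass : ∀ x ∈ T, ‖x‖ ≤ 3 / 2 → ∀ s, r / 2 ≤ s → s ≤ 1 / 8 →
      |ν.real (cylSet T x s) - Q * om 2 * s ^ 2| ≤ om 2 / 2 * s ^ 2 := by
    intro x hx hxn s hs hs8
    have hs0 : 0 < s := by linarith
    refine (H₁ T 0 2 h ν P (intCyl_mono_delta hc.ic hε3) ?_ x hx (by rw [sub_zero]; linarith) s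
      hs0 (by linarith) ?_).mass
    · calc exc T ν P 0 2 ≤ ε := hexe.trans hc.le
        _ ≤ δ₁ := hε3
        _ ≤ δ₁ * 2 ^ 2 := by linarith
    · intro s' h1 h2
      have h3 : r / 2 ≤ s' := hs.trans h1
      calc exc T ν P x s' ≤ e := hexc x hxn s' (by linarith)
        _ ≤ ε * r ^ 2 := her
        _ ≤ δ₁ / 4 * r ^ 2 := by gcongr
        _ = δ₁ * (r / 2) ^ 2 := by ring
        _ ≤ δ₁ * s' ^ 2 := by gcongr
  have hcylball : ∀ z : E, ∀ s : ℝ, {z' : E | ‖T.starProjection (z - z')‖ < s} =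
      cylSet T (T.starProjection z) s := by
    intro z s
    ext y
    show ‖T.starProjection (z - y)‖ < s ↔ T.starProjection y ∈ ball (T.starProjection z) s
    rw [mem_ball, dist_eq_norm, ← map_sub, ← norm_neg, ← map_neg, neg_sub]
  -- the cut-off
  set ρ : ℝ := 23 / 16 with hρ
  have hρ0 : 0 < ρ := by norm_num
  set ψ : E → ℝ := TP.ker T ρ with hψ
  set Lf : E → ℝ := {z : E | ‖T.starProjection z‖ < ρ + r}.indicator (fun _ => 4) with hLf
  have hLfm : MeasurableSet {z : E | ‖T.starProjection z‖ < ρ + r} :=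
    (isOpen_lt T.starProjection.continuous.norm continuous_const).measurableSet
  have hLfz : ∀ z, Lf z ≠ 0 → ‖T.starProjection z‖ < ρ + r := by
    intro z hz
    by_contra hcon
    exact hz (indicator_of_notMem (s := {z : E | ‖T.starProjection z‖ < ρ + r}) hcon _)
  have hψz : ∀ z, ρ ≤ ‖T.starProjection z‖ → ψ z = 0 := fun z hz => TP.ker_eq_zero hρ0 hz
  have h4ρ : 4 / ρ ≤ 4 := by rw [hρ]; norm_num
  -- the class
  set c : ℝ := c₀ * r ^ 2 with hcdef
  have hcpos : 0 < c := by positivity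
  set Cls : Set E := T.starProjection ⁻¹' U ∩ {z | 8 * e / c ≤ FV.tilt T (P z)} with hCls
  have hClsm : NullMeasurableSet Cls ν :=
    (hpm hU).nullMeasurableSet.inter (nullMeasurableSet_le aemeasurable_const
      (aesm_tilt hC).aemeasurable)
  have hMm : ∀ z, ‖T.starProjection z‖ < ρ + r →
      ν.real {z' | ‖T.starProjection (z - z')‖ < r ∧ ‖FV.co T (z - z')‖ < r} ≤ M₀ * r ^ 2 := by
    intro z hz
    have h1 : ‖T.starProjection z‖ ≤ 3 / 2 := by rw [hρ] at hz; linarith
    have h2 := hmass _ (T.starProjection_apply_mem z) h1 r (by linarith) (by linarith)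
    calc _ ≤ ν.real (cylSet T (T.starProjection z) r) := by
          rw [← hcylball]
          exact measureReal_mono fun z' hz' => hz'.1
      _ ≤ Q * om 2 * r ^ 2 + om 2 / 2 * r ^ 2 := by
          have := (abs_le.1 h2).2
          linarith
      _ = _ := by rw [hM₀]; ring
  have hslab := TP.slab_null (Lf := Lf) (w := 2 * σ) (r := r) (M := M₀ * r ^ 2) hC (by linarith)
    (by linarith) (TP.contDiff_ker (T := T) (r := ρ)) (by
      refine ⟨(T : Set E) ∩ closedBall 0 (3 / 2), ?_, ?_, ?_⟩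
      · exact (isCompact_closedBall (0:E) _).inter_left (Submodule.closed_of_finiteDimensional T)
      · rintro x ⟨-, hx⟩
        exact closedBall_subset_ball (by norm_num) hx
      · intro y hy
        refine hψz y ?_
        by_contra hcon
        refine hy ⟨T.starProjection_apply_mem y, ?_⟩
        rw [mem_closedBall, dist_zero_right]
        rw [hρ] at hcon
        linarith) (fun y => TP.ker_nonneg y) (by
      intro z hz x hx hxz
      have h1 : ‖T.starProjection z‖ < ρ := by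
        by_contra hcon
        exact hz (hψz z (not_lt.1 hcon))
      rw [mem_ball, dist_zero_right]
      calc ‖x‖ = ‖(x - T.starProjection z) + T.starProjection z‖ := by congr 1; abel
        _ ≤ ‖x - T.starProjection z‖ + ‖T.starProjection z‖ := norm_add_le _ _
        _ < 2 := by rw [hρ] at h1; linarith) (fun z => indicator_nonneg (fun _ _ => by norm_num) z)
    (by
      intro z z' hzz
      by_cases hz : ‖T.starProjection z‖ < ρ + r
      · rw [hLf, indicator_of_mem (show z ∈ {z : E | ‖T.starProjection z‖ < ρ + r} from hz)]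
        calc _ ≤ 4 / ρ * ‖T.starProjection (z - z')‖ := ker_lip T hρ0 z z'
          _ ≤ 4 * r := by gcongr
          _ = r * 4 := by ring
      · have h1 : ψ z = 0 := hψz z (by linarith)
        have h2 : ψ z' = 0 := by
          refine hψz z' ?_
          have h3 : ‖T.starProjection z‖ ≤ ‖T.starProjection (z - z')‖ + ‖T.starProjection z'‖ := by
            rw [map_sub]
            calc _ = ‖(T.starProjection z - T.starProjection z') + T.starProjection z'‖ := by
                  congr 1; abel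
              _ ≤ _ := norm_add_le _ _
          linarith
        show |ψ z - ψ z'| ≤ _
        rw [h1, h2, sub_zero, abs_zero]
        exact mul_nonneg hr.le (indicator_nonneg (fun _ _ => by norm_num) z))
    (by
      refine hti.bdd_mul (c := 4) (measurable_const.indicator hLfm).aestronglyMeasurable
        (Eventually.of_forall fun z => ?_)
      rw [Real.norm_of_nonneg (indicator_nonneg (fun _ _ => by norm_num) z)]
      refine indicator_le_self' (fun _ _ => by norm_num) z |>.trans ?_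
      exact le_rfl) (by positivity) (by
      intro z hz
      refine hMm z ?_
      rcases hz with hz | hz | hz
      · by_contra hcon
        exact hz (hψz z (by linarith))
      · by_contra hcon
        exact hz (TP.fderiv_ker_eq_zero hρ0 (by linarith))
      · exact hLfz z hz) hClsm (c := c) hcpos.le (by
      filter_upwards [hcoll] with z hz hzC hzψ
      have hzU : T.starProjection z ∈ U := hzC.1
      have hzn : ‖T.starProjection z‖ ≤ 3 / 2 := (hU1 _ hzU).trans (by norm_num)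
      refine ⟨?_, ?_⟩
      · have h1 := hmass _ (T.starProjection_apply_mem z) hzn (r / 2) le_rfl (by linarith)
        have h2 : ν (cylSet T (T.starProjection z) (r / 2)) ≤
            ν {z' | ‖T.starProjection (z - z')‖ ≤ r / 2 ∧ ‖FV.co T (z - z')‖ ≤ 2 * σ} := by
          refine measure_mono_ae ?_
          filter_upwards [hz hzU] with z' hz' hzc
          rw [← hcylball] at hzc
          have h3 : ‖T.starProjection (z - z')‖ < r / 2 := hzc
          refine ⟨h3.le, ?_⟩
          rw [← norm_neg, ← map_neg, neg_sub]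
          refine hz' ?_
          rw [← norm_neg, ← map_neg, neg_sub]
          linarith
        have h4 : ν.real (cylSet T (T.starProjection z) (r / 2)) ≤
            ν.real {z' | ‖T.starProjection (z - z')‖ ≤ r / 2 ∧ ‖FV.co T (z - z')‖ ≤ 2 * σ} :=
          ENNReal.toReal_mono (measure_ne_top _ _) h2
        refine le_trans ?_ h4
        have h5 := (abs_le.1 h1).1
        have h6 : om 2 * (r / 2) ^ 2 ≤ Q * om 2 * (r / 2) ^ 2 := by
          have : om 2 ≤ Q * om 2 := le_mul_of_one_le_left hom.le hQ0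
          gcongr
        rw [hcdef, hc₀]
        have e1 : om 2 / 8 * r ^ 2 = om 2 * (r / 2) ^ 2 - om 2 / 2 * (r / 2) ^ 2 := by ring
        rw [e1]
        linarith
      · have h1 : ∫ z' in {z' | ‖T.starProjection (z - z')‖ < r ∧ ‖FV.co T (z - z')‖ ≤ 2 * σ},
            FV.tilt T (P z') ∂ν ≤ exc T ν P (T.starProjection z) r := by
          refine setIntegral_tilt_mono hC fun z' hz' => ?_
          rw [← hcylball]
          exact hz'.1
        refine h1.trans ((hexc _ hzn r (by linarith)).trans ?_)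
        have h2 : 8 * e / c ≤ FV.tilt T (P z) := hzC.2
        rw [div_le_iff₀ hcpos] at h2
        linarith)
  -- the three error terms
  have hcyl : ∀ z : E, ‖T.starProjection z‖ < 3 / 2 → z ∈ cylSet T 0 2 := by
    intro z hz
    show T.starProjection z ∈ ball (0:E) 2
    rw [mem_ball, dist_zero_right]; linarith
  have hνc : ν.real (cylSet T 0 2) ≤ 4 * M₀ + 4 := by
    have h1 := (abs_le.1 hc.ic.mass).2
    rw [hM₀]
    nlinarith
  have hind := err_terms hC he0 hexe hνc
  have k1 := (hind (fun z => ‖fderiv ℝ ψ z‖) 4 (fun z => norm_nonneg _)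
    (fun z => (TP.norm_fderiv_ker_le hρ0 z).trans h4ρ) (fun z hz => by
      show ‖fderiv ℝ ψ z‖ = 0
      rw [norm_eq_zero]
      refine TP.fderiv_ker_eq_zero hρ0 ?_
      by_contra hcon
      exact hz (hcyl z (by rw [hρ] at hcon; linarith))) (by norm_num)).2
  have k2 := (hind ψ 1 (fun z => TP.ker_nonneg z) (fun z => TP.ker_le_one z) (fun z hz => by
      refine hψz z ?_
      by_contra hcon
      exact hz (hcyl z (by rw [hρ] at hcon; linarith))) (by norm_num)).1
  have k3 := (hind Lf 4 (fun z => indicator_nonneg (fun _ _ => by norm_num) z)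
    (fun z => indicator_le_self' (fun _ _ => by norm_num) z) (fun z hz => by
      by_contra hcon
      have := hLfz z hcon
      exact hz (hcyl z (by rw [hρ] at this; linarith))) (by norm_num)).1
  -- conclusion
  have hse : 0 < √e := Real.sqrt_pos.2 he0
  set V : ℝ := ∫ z in Cls, ψ z * FV.tilt T (P z) ∂ν with hV
  have hVle : V ≤ K₀ * (3 * (1 + (4 * M₀ + 4))) * (4 * (σ * √e + (σ / r + r) * e)) := by
    refine num_V hc₀0 hr hM₀0 hσ he0 (by linarith) ?_
    refine hslab.trans ?_
    gcongr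
  refine ⟨hClsm, hVle.trans (le_of_eq ?_)⟩
  rw [hCdef]; ring

/-- **the tilt over the collapsed set**, from the two-point slab lemma -/
theorem tp_global {Q : ℕ} (hQ : 1 ≤ Q) : ∃ C ε : ℝ, 0 < C ∧ 0 < ε ∧
    ∀ (e : ℝ) (T : Submodule ℝ E) (h : ℝ) (ν : Measure E) (P : E → E →L[ℝ] E),
    Conf0 Q ε e T h ν P → ∀ r σ : ℝ, 0 < r → r ≤ 1 / 96 → 0 < σ → 8 * σ ≤ r → e ≤ ε * r ^ 2 →
    ∀ I : Set E, (∀ x₀ ∈ I, HtIn T ν x₀ (8 * r) σ) →
    ∀ U : Set E, MeasurableSet U → (∀ u ∈ U, ‖u‖ ≤ 21 / 16) →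
    (∀ u ∈ U, ∃ x₀ ∈ I, dist u x₀ < 3 * r) →
    ∫ y in T.starProjection ⁻¹' U, FV.tilt T (P y) ∂ν ≤
      C * (σ * √e + (σ / r + r) * e) + C * (e / r ^ 2) * ν.real (T.starProjection ⁻¹' U) := by
  obtain ⟨C₁, c₀, ε, hC₁, hc₀, hε, H⟩ := tp_class (E := E) hQ
  -- `κ₀ = prof ((21/23)²)`
  set κ₀ : ℝ := (1 - (21 / 23) ^ 2) ^ 2 with hκ₀
  have hκ₀0 : 0 < κ₀ := by rw [hκ₀]; norm_num
  refine ⟨κ₀⁻¹ * C₁ + 8 / c₀, ε, by positivity, hε, ?_⟩
  intro e T h ν P hc r σ hr hr1 hσ hσr her I hI U hU hU1 hU2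
  obtain ⟨hClsm, hV⟩ := H e T h ν P hc r σ hr hr1 hσ hσr her I hI U hU hU1 hU2
  have hC := hc.ic.cyl
  haveI := hC.fin
  have he0 := hc.pos
  have hti := integrable_tilt hC
  have hUm : MeasurableSet (T.starProjection ⁻¹' U) := T.starProjection.continuous.measurable hU
  have hψC : IntegrableOn (fun z => TP.ker T (23 / 16) z * FV.tilt T (P z))
      (T.starProjection ⁻¹' U ∩ {z | 8 * e / (c₀ * r ^ 2) ≤ FV.tilt T (P z)}) ν := by
    refine Integrable.integrableOn ?_
    refine hti.bdd_mul (c := 1) (TP.contDiff_ker.continuous.aestronglyMeasurable)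
      (Eventually.of_forall fun z => ?_)
    rw [Real.norm_of_nonneg (TP.ker_nonneg z)]
    exact TP.ker_le_one z
  have hfin := class_all hC hUm hClsm inter_subset_left hκ₀0
    (by positivity : 0 ≤ 8 * e / (c₀ * r ^ 2)) hψC (fun z hzU => by
      have h2 : ‖T.starProjection z‖ ≤ 21 / 16 := hU1 _ hzU
      have h3 : ‖T.starProjection z‖ ^ 2 / (23 / 16) ^ 2 ≤ (21 / 23) ^ 2 := by
        rw [div_le_iff₀ (by positivity)]
        have := norm_nonneg (T.starProjection z)
        nlinarith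
      rw [hκ₀]
      unfold TP.ker prof
      have h4 : (0:ℝ) ≤ 1 - (21 / 23) ^ 2 := by norm_num
      have h5 : 1 - (21 / 23 : ℝ) ^ 2 ≤ max (1 - ‖T.starProjection z‖ ^ 2 / (23 / 16) ^ 2) 0 :=
        le_max_of_le_left (by linarith)
      gcongr) (fun z hzU hzc => by
      by_contra hcon
      exact hzc ⟨hzU, (not_le.1 hcon).le⟩)
  refine hfin.trans ?_
  have hν0 : 0 ≤ ν.real (T.starProjection ⁻¹' U) := measureReal_nonneg
  have g3 : 0 ≤ σ * √e + (σ / r + r) * e := by positivity
  have g4 : 0 ≤ e / r ^ 2 := by positivity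
  have g2 : 8 * e / (c₀ * r ^ 2) = 8 / c₀ * (e / r ^ 2) := by field_simp
  refine add_le_add ?_ ?_
  · refine (mul_le_mul_of_nonneg_left hV (inv_nonneg.2 hκ₀0.le)).trans ?_
    rw [← mul_assoc]
    refine mul_le_mul_of_nonneg_right ?_ g3
    have : 0 ≤ 8 / c₀ := by positivity
    linarith
  · rw [g2]
    refine mul_le_mul_of_nonneg_right (mul_le_mul_of_nonneg_right ?_ g4) hν0
    have : 0 ≤ κ₀⁻¹ * C₁ := by positivity
    linarith

end Vale.Agent.P214.R2F
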