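import Vale.Agent.P214.R2F.BoxB

/-! # P214, block BB-C: the collapsed cells, unconditional -/

open MeasureTheory Set Filter Topology Metric
open scoped ENNReal NNReal RealInnerProductSpace

set_option linter.all false

namespace Vale.Agent.P214.R2F

open Vale.Agent.P214.Skel Vale.Agent.P214.R2

variable {E : Type*} [NormedAddCommGroup E] [InnerProductSpace ℝ E] [FiniteDimensional ℝ E]
  [MeasurableSpace E] [BorelSpace E]

/-- the bottom scale beats any power of `L` -/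
lemma eventually_rb_rpow {K a : ℝ} (hK : 1 ≤ K) (ha : 0 < a) :
    ∀ᶠ L : ℝ in atTop, Real.exp ((lamL K L - L) / 2) ≤ L ^ (-a) := by
  have h1 := eventually_log_le a (1 / 4) 1 ha (by norm_num) one_pos
  filter_upwards [eventually_ge_atTop (Real.exp 2), h1] with L hL h2
  have hL0 : 0 < L := (Real.exp_pos 2).trans_le hL
  have h3 : 2 ≤ Real.log L := by rwa [Real.le_log_iff_exp_le hL0]
  have h4 : lamL K L ≤ L / 2 := by
    unfold lamL
    have h4 : 2 ≤ K * Real.log L := by nlinarith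
    gcongr
  rw [Real.rpow_one] at h2
  rw [Real.rpow_def_of_pos hL0]
  refine Real.exp_le_exp.2 ?_
  linarith

lemma final_num2 {C₁ C₂ A L e τ σ d r : ℝ} (hC₁ : 0 < C₁) (hC₂ : 0 < C₂) (hA : 1 ≤ A)
    (hL : 1 ≤ L) (he : 0 < e) (hd : d ≤ L ^ (-(3 * A))) (hr : r ≤ L ^ (-(3 * A)))
    (hτ : τ = L ^ (-A)) (hσ : σ = L ^ (-(3 * A)) * √e) :
    C₁ / τ * (C₂ * (σ * √e + (d + r) * e)) ≤ 3 * C₁ * C₂ * τ * e := by
  have hL0 : 0 < L := by linarith
  have hτ0 : 0 < τ := by rw [hτ]; exact Real.rpow_pos_of_pos hL0 _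
  have hss : √e * √e = e := Real.mul_self_sqrt he.le
  have h1 : L ^ (-(3 * A)) / τ ≤ τ := by
    rw [div_le_iff₀ hτ0, hτ, ← Real.rpow_add hL0]
    exact Real.rpow_le_rpow_of_exponent_le hL (by linarith)
  have h2 : σ * √e = L ^ (-(3 * A)) * e := by rw [hσ, mul_assoc, hss]
  rw [h2]
  calc C₁ / τ * (C₂ * (L ^ (-(3 * A)) * e + (d + r) * e))
      ≤ C₁ / τ * (C₂ * (L ^ (-(3 * A)) * e + (L ^ (-(3 * A)) + L ^ (-(3 * A))) * e)) := by gcongr
    _ = 3 * C₁ * C₂ * (L ^ (-(3 * A)) / τ) * e := by ring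
    _ ≤ 3 * C₁ * C₂ * τ * e := by gcongr

/-- **(BB-C)**: the fluctuation of a Borel function supported in the collapsed cells -/
theorem bbc {Q : ℕ} (hQ : 1 ≤ Q) {A K : ℝ} (hA : 1 ≤ A) (hK : 1 ≤ K) :
    ∃ C ε : ℝ, 0 < C ∧ 0 < ε ∧
    ∀ (e : ℝ) (T : Submodule ℝ E) (h : ℝ) (ν : Measure E) (P : E → E →L[ℝ] E),
    Conf0 Q ε e T h ν P → ∀ f : E → ℝ, Measurable f → (∀ x, 0 ≤ f x) → (∀ x, f x ≤ 1) →
    (∀ x ∈ T, f x ≠ 0 → ∃ x₀ ∈ T, ‖x₀‖ ≤ 9 / 8 ∧ ‖x - x₀‖ < rb K e ∧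
      HtIn T ν x₀ (8 * rb K e) (sg A e)) →
    Ffl 2 Q T ν P f ≤ C * (Real.log e⁻¹) ^ (-A) * e := by
  have hK0 : 0 < K := by linarith
  obtain ⟨δ, C₁, hδ, hC₁, H₁⟩ := coll_core (E := E) 2 Q
  obtain ⟨C₂, ε₂, hC₂, hε₂, H₂⟩ := tp_global (E := E) hQ
  obtain ⟨ε₃, hε₃, H₃⟩ := win_top E 2 Q (by norm_num) hδ (c := 1 / 32) (by norm_num)
  obtain ⟨ε₄, hε₄, hε₄1, H₄⟩ := eventually_rb_le (K := K) (c := 1 / 96) hK (by norm_num)
  have hev : ∀ᶠ L : ℝ in atTop, 1 ≤ L ∧ 2 * Real.exp (-lamL K L) ≤ L ^ (-A) ∧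
      C₁ * C₂ * Real.exp (-lamL K L) ≤ L ^ (-A) ∧ 64 * Real.exp (-lamL K L) ≤ L ^ (-(0:ℝ)) ∧
      ε₂⁻¹ * Real.exp (-lamL K L) ≤ L ^ (-(0:ℝ)) ∧ L ^ (-A) ≤ δ ∧
      Real.exp ((lamL K L - L) / 2) ≤ L ^ (-(3 * A)) := by
    have h6 : ∀ᶠ L : ℝ in atTop, L ^ (-A) ≤ δ :=
      (tendsto_rpow_neg_atTop (by linarith : 0 < A)).eventually (ge_mem_nhds hδ)
    filter_upwards [eventually_ge_atTop 1, eventually_exp_lam hK0 A 2,
      eventually_exp_lam hK0 A (C₁ * C₂), eventually_exp_lam hK0 0 64,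
      eventually_exp_lam hK0 0 ε₂⁻¹, h6, eventually_rb_rpow hK (by linarith : 0 < 3 * A)]
      with L a1 a2 a3 a4 a5 a6 a7
    exact ⟨a1, a2, a3, a4, a5, a6, a7⟩
  obtain ⟨ε₅, hε₅, hε₅1, H₅⟩ := exists_eps_of_eventually hev
  set ε := min (min ε₂ (ε₃ / 2)) (min ε₄ ε₅) with hε
  have hε0 : 0 < ε := lt_min (lt_min hε₂ (by positivity)) (lt_min hε₄ hε₅)
  refine ⟨C₁ + 3 * C₁ * C₂, ε, by positivity, hε0, ?_⟩
  intro e T h ν P hc f hf hf0 hf1 hfs
  have hC := hc.ic.cyl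
  haveI := hC.fin
  have he0 := hc.pos
  have heε := hc.le
  have hexe := hc.exc_le
  have k2 : ε ≤ ε₂ := (min_le_left _ _).trans (min_le_left _ _)
  have k3 : ε ≤ ε₃ / 2 := (min_le_left _ _).trans (min_le_right _ _)
  have k4 : ε ≤ ε₄ := (min_le_right _ _).trans (min_le_left _ _)
  have k5 : ε ≤ ε₅ := (min_le_right _ _).trans (min_le_right _ _)
  have hrb : rb K e ≤ 1 / 96 := H₄ e he0 (heε.trans k4)
  obtain ⟨a1, a2, a4, a8, a9, a6, a7⟩ := H₅ e he0 (heε.trans k5)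
  have hrb0 : 0 < rb K e := rb_pos he0
  have hexp := exp_neg_mul_rb_sq (K := K) he0
  rw [← lam_eq] at a2 a4 a7 a8 a9
  set L := Real.log e⁻¹ with hL
  set x0 := Real.exp (-lam K e) with hx0
  have hx00 : 0 < x0 := Real.exp_pos _
  set r := rb K e with hr
  have hL0 : 0 < L := by linarith
  have hex : e ≤ x0 := by
    rw [← hexp]
    have : r ^ 2 ≤ 1 := by nlinarith
    nlinarith
  set τ := L ^ (-A) with hτdef
  have hτ : 0 < τ := Real.rpow_pos_of_pos hL0 _
  set σ := sg A e with hσdef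
  have hσ : 0 < σ := mul_pos (Real.rpow_pos_of_pos hL0 _) (Real.sqrt_pos.2 he0)
  have hse : 0 < √e := Real.sqrt_pos.2 he0
  rw [neg_zero, Real.rpow_zero] at a8 a9
  have hτ1 : L ^ (-(3 * A)) ≤ 1 := Real.rpow_le_one_of_one_le_of_nonpos a1 (by linarith)
  have hσe : σ ≤ √e := by
    rw [hσdef]; unfold sg
    rw [← hL]
    exact mul_le_of_le_one_left hse.le hτ1
  have hre : 8 * √e ≤ r := by
    refine (pow_le_pow_iff_left₀ (by positivity) hrb0.le two_ne_zero).1 ?_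
    rw [mul_pow, Real.sq_sqrt he0.le]
    calc (8:ℝ) ^ 2 * e = 64 * x0 * r ^ 2 := by rw [← hexp]; ring
      _ ≤ 1 * r ^ 2 := by gcongr
      _ = r ^ 2 := one_mul _
  have hσr : 8 * σ ≤ r := by linarith
  have her : e ≤ ε₂ * r ^ 2 := by
    have h1 : x0 ≤ ε₂ := by
      rw [inv_mul_le_iff₀ hε₂, mul_one] at a9
      exact a9
    calc e = x0 * r ^ 2 := hexp.symm
      _ ≤ ε₂ * r ^ 2 := by gcongr
  have hr3 : r ≤ L ^ (-(3 * A)) := by
    refine le_trans (le_of_eq ?_) a7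
    rw [hr]; unfold rb
    have e1 : √e = Real.exp (-(L / 2)) := by
      rw [hL, Real.log_inv, Real.sqrt_eq_rpow, Real.rpow_def_of_pos he0]
      congr 1; ring
    rw [e1, ← Real.exp_add]
    congr 1; ring
  have hσr3 : σ / r ≤ L ^ (-(3 * A)) := by
    rw [div_le_iff₀ hrb0, hσdef]; unfold sg
    rw [← hL]
    have : √e ≤ r := by linarith
    gcongr
  have hxr : e / r ^ 2 = x0 := by rw [← hexp]; field_simp
  -- the set
  set Aset : Set E := {x | x ∈ T ∧ f x ≠ 0} with hAset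
  have hTm : MeasurableSet (T : Set E) := (Submodule.closed_of_finiteDimensional T).measurableSet
  have hAm : MeasurableSet Aset := hTm.inter (hf (measurableSet_singleton 0).compl)
  have hAn : ∀ x ∈ Aset, ‖x‖ < 5 / 4 := by
    rintro x ⟨hx, hfx⟩
    obtain ⟨x₀, -, h1, h2, -⟩ := hfs x hx hfx
    calc ‖x‖ = ‖(x - x₀) + x₀‖ := by congr 1; abel
      _ ≤ ‖x - x₀‖ + ‖x₀‖ := norm_add_le _ _
      _ < 5 / 4 := by linarith
  set ψ : E → ℝ := Aset.indicator f with hψ
  have hψm : Measurable ψ := hf.indicator hAm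
  have hψ0 : ∀ x, 0 ≤ ψ x := fun x => indicator_nonneg (fun _ _ => hf0 _) x
  have hψ1 : ∀ x, ψ x ≤ 1 := fun x => by
    by_cases hx : x ∈ Aset
    · rw [hψ, indicator_of_mem hx]; exact hf1 x
    · rw [hψ, indicator_of_notMem hx]; exact zero_le_one
  have hψf : ∀ x ∈ T, ψ x = f x := by
    intro x hx
    by_cases hx' : x ∈ Aset
    · rw [hψ, indicator_of_mem hx']
    · rw [hψ, indicator_of_notMem hx']
      by_contra hcon
      exact hx' ⟨hx, fun h => hcon h.symm⟩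
  have hψz : ∀ x, x ∉ Aset → ψ x = 0 := fun x hx => indicator_of_notMem hx _
  -- restriction to the cylinder
  set cy := cylSet T 0 2 with hcy
  have hcym : MeasurableSet cy := measurableSet_cylSet T 0 2
  set ν' := ν.restrict cy with hν'
  obtain ⟨S, θ, -, -, -, hint⟩ := AREA.intCyl_of_skel hc.ic (A := univ)
    (Eventually.of_forall fun _ _ => mem_univ _)
  have hpm : Measurable (T.starProjection : E → E) := T.starProjection.continuous.measurable
  have hWin : ∀ x ∈ T, ‖x‖ ≤ 3 / 2 → INT.Win 2 Q δ T (ball 0 2) h ν' P S θ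
      (fun y => AREA.jac (proj T) (P y)) x (1 / 16) := by
    intro x hx hxn
    refine H₃ T 0 2 h ν P (intCyl_mono_delta hc.ic (by linarith)) ?_ x hx (1 / 16) (by norm_num)
      (by rw [sub_zero]; linarith) S θ _ hint
    have : exc T ν P 0 2 ≤ ε₃ / 2 := hexe.trans (heε.trans k3)
    nlinarith
  obtain ⟨N, hN, hcov⟩ := exists_net E (l := 1 / 16) (ρ := 3 / 2) (by norm_num)
  have hJ : ∀ᵐ y ∂ν', 1 - FV.tilt T (P y) / 2 - FV.tilt T (P y) ^ 2 / 2 ≤
      AREA.jac (proj T) (P y) := by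
    filter_upwards [ae_restrict_of_ae hC.proj] with y hy
    obtain ⟨L', hL', hPL⟩ := hy
    rw [hPL]
    exact (AREA.jac_bounds hL' hC.dimT).2.2.2.1
  have hexcr : ∀ x s, exc T ν' P x s ≤ exc T ν P x s := by
    intro x s
    unfold exc
    refine integral_mono_measure (Measure.restrict_mono_measure Measure.restrict_le_self _)
      (ae_restrict_of_ae (tilt_nonneg_ae hC)) (integrable_tilt hC).integrableOn
  have hcore := H₁ T (T.starProjection ⁻¹' (ball 0 2)) h ν' P S θ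
    (fun y => AREA.jac (proj T) (P y)) (1 / 16) ((fun z => T.starProjection z) '' (N : Set E))
    ((N.finite_toSet.image _).countable) (by
      rintro _ ⟨z, hz, rfl⟩
      refine ⟨T.starProjection_apply_mem z, ?_⟩
      exact (hWin _ (T.starProjection_apply_mem z)
        ((T.norm_starProjection_apply_le z).trans (hN z hz))).dat) hint.pre hJ τ r
    (C₂ * (σ * √e + (σ / r + r) * e)) (C₂ * (e / r ^ 2)) hτ a6 hrb0 (by linarith)
    (by positivity) (by
      rw [hxr]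
      calc C₁ * (C₂ * x0) = C₁ * C₂ * x0 := by ring
        _ ≤ τ := a4) Aset hAm (fun x hx => hx.1) (by
      intro x hx
      obtain ⟨z, hz, hxz⟩ := hcov T x hx.1 (by linarith [hAn x hx])
      exact ⟨_, ⟨z, hz, rfl⟩, by rw [mem_ball, dist_eq_norm]; exact hxz⟩) (by
      intro x hx s hs hs2
      have hs0 : 0 < s := hrb0.trans_le hs
      have h1 : exc T ν P x s ≤ e := (exc_mono hC (by
        rw [dist_zero_right]; linarith [hAn x hx])).trans hexe
      calc 2 * exc T ν' P x s ≤ 2 * e := by linarith [hexcr x s]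
        _ = 2 * x0 * r ^ 2 := by rw [← hexp]; ring
        _ ≤ τ * s ^ 2 := by gcongr) (by
      intro U hU hUA
      have hU1 : ∀ u ∈ U, ‖u‖ ≤ 21 / 16 := by
        intro u hu
        obtain ⟨x, hx, hux⟩ := hUA u hu
        rw [dist_eq_norm] at hux
        calc ‖u‖ = ‖(u - x) + x‖ := by congr 1; abel
          _ ≤ ‖u - x‖ + ‖x‖ := norm_add_le _ _
          _ ≤ 21 / 16 := by linarith [hAn x hx]
      have hUc : T.starProjection ⁻¹' U ∩ cy = T.starProjection ⁻¹' U := by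
        refine inter_eq_left.2 fun y hy => ?_
        show T.starProjection y ∈ ball (0:E) 2
        rw [mem_ball, dist_zero_right]
        linarith [hU1 _ hy]
      have e1 : ν'.restrict (T.starProjection ⁻¹' U) = ν.restrict (T.starProjection ⁻¹' U) := by
        rw [hν', Measure.restrict_restrict (hpm hU), hUc]
      have e2 : ν'.real (T.starProjection ⁻¹' U) = ν.real (T.starProjection ⁻¹' U) := by
        rw [measureReal_def, measureReal_def, hν', Measure.restrict_apply (hpm hU), hUc]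
      rw [e1, e2]
      exact H₂ e T h ν P ⟨intCyl_mono_delta hc.ic k2, he0, heε.trans k2, hexe⟩ r σ hrb0
        hrb hσ hσr her {x₀ | HtIn T ν x₀ (8 * r) σ} (fun x hx => hx) U hU hU1 (by
          intro u hu
          obtain ⟨x, hx, hux⟩ := hUA u hu
          obtain ⟨x₀, -, -, h2, h3⟩ := hfs x hx.1 hx.2
          refine ⟨x₀, h3, ?_⟩
          calc dist u x₀ ≤ dist u x + dist x x₀ := dist_triangle _ _ _
            _ < 3 * r := by rw [dist_eq_norm x]; linarith))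
    ψ hψm hψ0 hψ1 hψz (by
      have h1 : IntegrableOn ψ ((T : Set E) ∩ closedBall 0 (5 / 4)) (μH[2] : Measure E) := by
        refine Measure.integrableOn_of_bounded (M := 1)
          (DEN.locallyFinite_plane (m := 2) hC.dimT _).ne hψm.aestronglyMeasurable
          (ae_of_all _ fun x => ?_)
        rw [Real.norm_eq_abs, abs_of_nonneg (hψ0 x)]; exact hψ1 x
      refine IntegrableOn.of_forall_diff_eq_zero h1 hTm ?_
      rintro x ⟨hx, hx'⟩
      refine hψz x fun hxA => hx' ⟨hx, ?_⟩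
      rw [mem_closedBall, dist_zero_right]
      exact (hAn x hxA).le)
  -- back to `f` and `ν`
  have hFfl : Ffl 2 Q T ν P f = Ffl 2 Q T ν' P ψ := by
    unfold Ffl
    congr 1
    · have h1 : ∀ y, ψ (T.starProjection y) = f (T.starProjection y) := fun y =>
        hψf _ (T.starProjection_apply_mem y)
      simp_rw [h1]
      rw [hν']
      refine (setIntegral_eq_integral_of_forall_compl_eq_zero fun y hy => ?_).symm
      rw [← h1, hψz _ fun hA' => hy ?_, zero_mul]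
      show T.starProjection y ∈ ball (0:E) 2
      rw [mem_ball, dist_zero_right]
      linarith [hAn _ hA']
    · congr 1
      refine setIntegral_congr_fun hTm fun x hx => (hψf x hx).symm
  rw [hFfl]
  refine hcore.trans ?_
  have htilt : ∫ y, ψ (T.starProjection y) * FV.tilt T (P y) ∂ν' ≤ e := by
    rw [hν']
    refine le_trans ?_ hexe
    refine integral_mono_ae ?_ (integrable_tilt hC).integrableOn ?_
    · refine (integrable_tilt hC).integrableOn.bdd_mul (c := 1)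
        (hψm.comp hpm).aestronglyMeasurable (Eventually.of_forall fun y => ?_)
      rw [Real.norm_of_nonneg (hψ0 _)]; exact hψ1 _
    · filter_upwards [ae_restrict_of_ae (tilt_nonneg_ae hC)] with y hy
      exact mul_le_of_le_one_left hy (hψ1 _)
  have hD : C₁ / τ * (C₂ * (σ * √e + (σ / r + r) * e)) ≤ 3 * C₁ * C₂ * τ * e :=
    final_num2 hC₁ hC₂ hA a1 he0 hσr3 hr3 rfl rfl
  calc C₁ * τ * ∫ y, ψ (T.starProjection y) * FV.tilt T (P y) ∂ν' +
        C₁ / τ * (C₂ * (σ * √e + (σ / r + r) * e)) ≤ C₁ * τ * e + 3 * C₁ * C₂ * τ * e := by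
        gcongr
    _ = (C₁ + 3 * C₁ * C₂) * τ * e := by ring

/-- **BoxC**, for every notion of splitting -/
theorem boxC {Q : ℕ} (hQ : 1 ≤ Q)
    (Sp : Submodule ℝ E → Measure E → (E → E →L[ℝ] E) → E → ℝ → Prop) : BoxC Sp Q := by
  intro CH A K hA hK
  obtain ⟨C, ε, hC, hε, H⟩ := bbc (E := E) hQ hA hK
  refine ⟨C, ε, hC, hε, ?_⟩
  intro e T h ν P hc f hf hf0 hf1 hfs
  refine H e T h ν P hc.toConf0 f hf hf0 hf1 fun x hx hfx => ?_
  obtain ⟨x₀, h1, h2, h3, -, h4⟩ := hfs x hx hfx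
  exact ⟨x₀, h1, h2, h3, h4⟩

end Vale.Agent.P214.R2F
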