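import Vale.Agent.P214.R2F.Pos
import Vale.Agent.P214.INT.MMain
import Vale.Agent.P214.INTM.M5

/-! # P214, block BB-C (core): the cells over which the varifold is collapsed -/

open MeasureTheory Set Filter Topology Metric
open scoped ENNReal NNReal RealInnerProductSpace

set_option linter.all false

namespace Vale.Agent.P214.R2F

open Vale.Agent.P214.FV Vale.Agent.P214.INT

variable {E : Type*} [NormedAddCommGroup E] [InnerProductSpace ℝ E] [FiniteDimensional ℝ E]
  [MeasurableSpace E] [BorelSpace E] {m : ℕ}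

variable {T : Submodule ℝ E} {G : Set E} {h : ℝ} {ν : Measure E} {P : E → E →L[ℝ] E}
  {S : Set E} {θ : E → ℕ} {J : E → ℝ}

/-- the operator tilt is controlled by the trace tilt -/
lemma opTilt_sq_le (hC : CylStat m T G h ν P) :
    ∀ᵐ y ∂ν, INT.tilt P T y ^ 2 ≤ 2 * FV.tilt T (P y) := by
  filter_upwards [hC.proj] with y hy
  obtain ⟨L, hL', hL⟩ := hy
  have hd : Module.finrank ℝ L = Module.finrank ℝ T := by rw [hL', hC.dimT]
  have h0 : 0 ≤ FV.tilt T (P y) := by rw [hL]; exact FV.tilt_nonneg L T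
  have h1 : ‖P y - T.starProjection‖ ≤ √(2 * FV.tilt T (P y)) := by
    refine ContinuousLinearMap.opNorm_le_bound _ (Real.sqrt_nonneg _) fun v => ?_
    have h2 := FV.norm_sq_sub_le L T hd v
    rw [← hL] at h2
    rw [ContinuousLinearMap.sub_apply]
    refine Real.le_sqrt_of_sq_le h2 |>.trans ?_
    rw [Real.sqrt_mul' _ (sq_nonneg _), Real.sqrt_sq (norm_nonneg _)]
  unfold INT.tilt
  calc _ ≤ (√(2 * FV.tilt T (P y))) ^ 2 := by gcongr
    _ = _ := Real.sq_sqrt (by positivity)

/-- the trace tilt is controlled by the operator tilt -/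
lemma trTilt_le (hC : CylStat m T G h ν P) :
    ∀ᵐ y ∂ν, FV.tilt T (P y) ≤ m * INT.tilt P T y ^ 2 := by
  filter_upwards [hC.proj] with y hy
  obtain ⟨L, hL', hL⟩ := hy
  unfold INT.tilt
  rw [hL]
  exact (AREA.jac_bounds hL' hC.dimT).2.2.1

/-- the two normalisations of the excess -/
lemma excInt_le (hC : CylStat m T G h ν P) {x : E} (hx : x ∈ T) {s : ℝ} (hs : 0 < s) :
    INT.exc m T ν P x s ≤ 2 * Skel.exc T ν P x s / s ^ m := by
  have hfin := hC.fin
  have hpx : T.starProjection x = x := Submodule.starProjection_eq_self_iff.2 hx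
  unfold INT.exc
  refine div_le_div_of_nonneg_right ?_ (by positivity)
  have e : cyl T x s = Skel.cylSet T x s := by
    unfold cyl Skel.cylSet; rw [hpx]; rfl
  rw [e]
  unfold Skel.exc
  rw [← integral_const_mul]
  refine integral_mono_of_nonneg (Eventually.of_forall fun y => sq_nonneg _)
    ((integrable_tilt hC).integrableOn.const_mul 2) (ae_restrict_of_ae (opTilt_sq_le hC))

/-- **the collapsed cells**: good part by the positivity, bad part by the Vitali covering and a
bound `D + B ν` of the tilt excess over small neighbourhoods of the bad set. -/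
theorem coll_core (m Q : ℕ) : ∃ δ C : ℝ, 0 < δ ∧ 0 < C ∧
    ∀ (T : Submodule ℝ E) (G : Set E) (h : ℝ) (ν : Measure E) (P : E → E →L[ℝ] E) (S : Set E)
      (θ : E → ℕ) (J : E → ℝ) (r : ℝ) (F : Set E), F.Countable →
      (∀ z ∈ F, z ∈ T ∧ INTM.Dat m Q δ T G h ν P S θ J z r) →
      INT.IntCyl m T G h ν P S θ J →
      (∀ᵐ y ∂ν, 1 - FV.tilt T (P y) / 2 - FV.tilt T (P y) ^ 2 / 2 ≤ J y) →
      ∀ τ s₁ D B : ℝ, 0 < τ → τ ≤ δ → 0 < s₁ → 6 * s₁ ≤ r → 0 ≤ B → C * B ≤ τ →
      ∀ A : Set E, MeasurableSet A → A ⊆ (T : Set E) → (∀ x ∈ A, ∃ z ∈ F, x ∈ ball z r) →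
      (∀ x ∈ A, ∀ s, s₁ ≤ s → s ≤ r → 2 * Skel.exc T ν P x s ≤ τ * s ^ m) →
      (∀ U : Set E, MeasurableSet U → (∀ u ∈ U, ∃ x ∈ A, dist u x ≤ s₁) →
        ∫ y in T.starProjection ⁻¹' U, FV.tilt T (P y) ∂ν ≤
          D + B * ν.real (T.starProjection ⁻¹' U)) →
      ∀ ψ : E → ℝ, Measurable ψ → (∀ x, 0 ≤ ψ x) → (∀ x, ψ x ≤ 1) → (∀ x, x ∉ A → ψ x = 0) →
      IntegrableOn ψ (T : Set E) μH[m] →
      Skel.Ffl m Q T ν P ψ ≤
        C * τ * ∫ y, ψ (T.starProjection y) * FV.tilt T (P y) ∂ν + C / τ * D := by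
  obtain ⟨δ, C₁, hδ, hC₁, H⟩ := INTM.thmM (E := E) m Q (ε := 1) one_pos
  refine ⟨δ, m * C₁ + 8 * (C₁ * 6 ^ m), hδ, by positivity, ?_⟩
  intro T G h ν P S θ J r F hF hD hI hJ τ s₁ D B hτ hτδ hs₁ hs₁r hB hBτ A hA hAT hAF hexc hcol ψ hψ h0
    h1 hs hψi
  set C := m * C₁ + 8 * (C₁ * 6 ^ m) with hCdef
  have hC := hI.stat
  have hfin := hC.fin
  have hr : 0 < r := by linarith
  have hpt : ∀ x : E, x ∈ T → T.starProjection x = x := fun x hx =>
    Submodule.starProjection_eq_self_iff.2 hx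
  -- the good set
  set X : Set E := ⋃ z ∈ F, goodSet m T ν P z r τ with hX
  have hXm : MeasurableSet X := MeasurableSet.biUnion hF fun z _ => measurableSet_goodSet hI.loc
  have hgood : ∀ z ∈ T, goodSet m T ν P z r τ = INTM.good m τ T ν P z r := by
    intro z hz
    unfold goodSet INTM.good
    rw [hpt z hz]
  have hTm : MeasurableSet (T : Set E) := (Submodule.closed_of_finiteDimensional T).measurableSet
  have hN : ∀ᵐ x ∂((μH[m] : Measure E).restrict (T : Set E)), x ∈ X →
      sheets T S θ univ x = Q := by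
    have h2 : ∀ᵐ x ∂((μH[m] : Measure E).restrict (T : Set E)), ∀ z ∈ F,
        x ∈ goodSet m T ν P z r τ → sheets T S θ univ x = Q := by
      rw [ae_ball_iff hF]
      intro z hz
      rw [hgood z (hD z hz).1]
      exact (H T G h ν P S θ J z r (hD z hz).2).2.1 τ hτδ
    filter_upwards [h2] with x hx hxX
    obtain ⟨z, hz, hxz⟩ := mem_iUnion₂.1 hxX
    exact hx z hz hxz
  have hκ : ∀ᵐ y ∂ν, T.starProjection y ∈ X → FV.tilt T (P y) ≤ m * (C₁ * τ) := by
    have h2 : ∀ᵐ y ∂ν, ∀ z ∈ F, T.starProjection y ∈ goodSet m T ν P z r τ →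
        INT.tilt P T y ^ 2 ≤ C₁ * τ := by
      rw [ae_ball_iff hF]
      intro z hz
      rw [hgood z (hD z hz).1]
      exact (H T G h ν P S θ J z r (hD z hz).2).2.2 τ hτδ
    filter_upwards [h2, trTilt_le hC] with y hy hy2 hyX
    obtain ⟨z, hz, hxz⟩ := mem_iUnion₂.1 hyX
    refine hy2.trans ?_
    have := hy z hz hxz
    gcongr
  have hfl := ffl_le hI hJ (Q := Q) hXm hA hN (κ := m * (C₁ * τ)) (by positivity) hκ hψ h0 h1 hs hψi
  -- the bad set
  have hexcI : ∀ x ∈ A, ∀ s, s₁ ≤ s → s ≤ r → INT.exc m T ν P x s ≤ τ := by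
    intro x hx s h2 h3
    have hs0 : 0 < s := hs₁.trans_le h2
    refine (excInt_le hC (hAT hx) hs0).trans ?_
    rw [div_le_iff₀ (by positivity)]
    exact hexc x hx s h2 h3
  obtain ⟨U, hUm, hUA, hb1, hb2⟩ := bad_cover hC (A := A \ X) (τ := τ / 2) (s₁ := s₁)
    (C₁ := C₁ * 6 ^ m) (by positivity) (by positivity) (by
      rintro x ⟨hx, -⟩
      have := hexc x hx s₁ le_rfl (by linarith)
      linarith) (by
      rintro x ⟨hx, hxX⟩
      obtain ⟨z, hz, hxz⟩ := hAF x hx
      have h2 : x ∉ goodSet m T ν P z r τ := fun hc => hxX (mem_iUnion₂.2 ⟨z, hz, hc⟩)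
      simp only [goodSet, mem_setOf_eq, not_and, not_forall, not_le] at h2
      obtain ⟨s, hs0, hsr, hse⟩ := h2 (hAT hx) hxz
      refine ⟨s, hs0, ?_, ?_⟩
      · by_contra hcon
        exact absurd (hexcI x hx s (not_le.1 hcon).le hsr) (not_le.2 hse)
      · have h3 := hse.trans_le (excInt_le hC (hAT hx) hs0)
        rw [lt_div_iff₀ (by positivity)] at h3
        linarith) (by
      rintro x ⟨hx, -⟩ s hs0 hss he
      obtain ⟨z, hz, hxz⟩ := hAF x hx
      have h2 := ((H T G h ν P S θ J z r (hD z hz).2).1.2 x (by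
        rw [hpt x (hAT hx), hpt z (hD z hz).1]; exact hxz) (6 * s) (by positivity)
        (by linarith [hs₁]) (fun s' h3 h4 => ?_)).2 (6 * s) (by linarith) (by linarith)
      · have e : cyl T x (6 * s) = Skel.cylSet T x (6 * s) := by
          unfold cyl Skel.cylSet; rw [hpt x (hAT hx)]; rfl
        rw [e, mul_pow] at h2
        calc _ ≤ _ := h2
          _ = _ := by ring
      · refine (le_trans ?_ hτδ)
        rcases le_or_gt s₁ s' with h5 | h5
        · exact hexcI x hx s' h5 h4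
        · have hs'0 : 0 < s' := by linarith
          refine (excInt_le hC (hAT hx) hs'0).trans ?_
          rw [div_le_iff₀ (by positivity)]
          have := he s' ⟨by linarith, h5.le⟩
          linarith)
  set I := ∫ y in T.starProjection ⁻¹' U, FV.tilt T (P y) ∂ν with hIdef
  have hI0 : 0 ≤ I := integral_nonneg_of_ae (ae_restrict_of_ae (tilt_nonneg_ae hC))
  have h3 : I ≤ D + B * ν.real (T.starProjection ⁻¹' U) := hcol U hUm fun u hu => by
    obtain ⟨x, hx, hxu⟩ := hUA u hu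
    exact ⟨x, hx.1, hxu⟩
  have h4 : B * ν.real (T.starProjection ⁻¹' U) ≤ 1 / 4 * I := by
    calc _ ≤ B * (C₁ * 6 ^ m / (τ / 2) * I) := by gcongr
      _ = (8 * (C₁ * 6 ^ m) * B) / (4 * τ) * I := by field_simp; ring
      _ ≤ τ / (4 * τ) * I := by
          gcongr
          refine le_trans ?_ hBτ
          gcongr
          rw [hCdef]
          have : 0 ≤ m * C₁ := by positivity
          linarith
      _ = _ := by field_simp
  have h5 : I ≤ 2 * D := by linarith
  have h6 : ν.real (T.starProjection ⁻¹' (A \ X)) ≤ C / τ * D := by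
    calc _ ≤ C₁ * 6 ^ m / (τ / 2) * I := hb1
      _ ≤ C₁ * 6 ^ m / (τ / 2) * (2 * D) := by gcongr
      _ = 4 * (C₁ * 6 ^ m) / τ * D := by field_simp; ring
      _ ≤ _ := by
          have hD0 : 0 ≤ D := by linarith
          gcongr
          rw [hCdef]
          have : 0 ≤ m * C₁ := by positivity
          have : 0 ≤ C₁ * 6 ^ m := by positivity
          linarith
  have h7 : 0 ≤ ∫ y, ψ (T.starProjection y) * FV.tilt T (P y) ∂ν := by
    refine integral_nonneg_of_ae ?_
    filter_upwards [tilt_nonneg_ae hC] with y hy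
    exact mul_nonneg (h0 _) hy
  calc _ ≤ _ := hfl
    _ ≤ C * τ * ∫ y, ψ (T.starProjection y) * FV.tilt T (P y) ∂ν + C / τ * D := by
        rw [one_mul]
        have h8 : m * (C₁ * τ) / 2 ≤ C * τ := by
          rw [hCdef]
          have : 0 ≤ m * C₁ * τ := by positivity
          have : 0 ≤ C₁ * 6 ^ m * τ := by positivity
          linarith
        gcongr

end Vale.Agent.P214.R2F
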